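import Claimed.Agent.R316.Base.Vol.Basic
import Claimed.Agent.R316.Pack022_2
import Claimed.Agent.R316.Pack005

/-!
# Row 316, G6-Green: Green's identities on a Kaehler manifold; the divergence theorem

Statement file by helper55.  `V` finite dimensional, `h` Kaehler, `μ = hvol 𝓜 h`.

ROUTE for `integral_mul_lap` (`φ` locally Lipschitz with compact support, `f` smooth):
1. `CMfd.CSupp.exists_decomp`: `φ = ∑ χ_i φ` on the carrier, `φ_i = χ_i φ` locally Lipschitz, supported in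
   `Φ_i '' closedBall 0 (r_i)`.
2. for each `i`: `integral_hvol_of_support_real` + `lap_eq_lapP`, `gradInner_eq` + `chart_green_of_lipschitz` (CW/Green.lean;
   `ClosedAt` is `IsKahler.closed`) give `∫ φ_i Δf = - ∫ ⟨∂φ_i,∂f⟩`.
3. sum over `i`: `⟨∂φ,∂f⟩ = ∑ ⟨∂φ_i,∂f⟩` at every point where `φ` is differentiable (`gradInner_sum_left`,
   `gradInner_congr_left`), i.e. a.e. (`CMfd.LocLip.ae_diffAt`).
All integrands are bounded, measurable and compactly supported (`integrable_hvol_of_bdd_csupp`).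

ROUTE for `integral_div_eq_zero`: header of the theorem.
-/

set_option autoImplicit false
set_option linter.unusedSectionVars false
open scoped ContDiff ComplexOrder Topology
open MeasureTheory

namespace Claimed.Agent.R316

variable {V : Type} [NormedAddCommGroup V] [NormedSpace ℝ V] [FiniteDimensional ℝ V]
  [MeasurableSpace V] [BorelSpace V]
variable {ι : Type} [Fintype ι] [DecidableEq ι]
variable {𝓜 : CMfd V ι} {h : HFam V ι} {φ ψ f u w : V → ℝ}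

/-! ### locally Lipschitz functions: basic facts -/

section loclip

/-- outer locally Lipschitz map. -/
theorem locallyLipschitzOn_comp_of_locallyLipschitz {α β γ : Type} [PseudoEMetricSpace α]
    [PseudoEMetricSpace β] [PseudoEMetricSpace γ] {s : Set α} {F : α → β} {G : β → γ}
    (hG : LocallyLipschitz G) (hF : LocallyLipschitzOn s F) : LocallyLipschitzOn s (G ∘ F) := by
  intro x hx
  obtain ⟨KF, t, ht, hKF⟩ := hF hx
  obtain ⟨KG, t', ht', hKG⟩ := hG (F x)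
  have hc : F ⁻¹' t' ∈ 𝓝[s] x := (hF.continuousOn x hx) ht'
  exact ⟨KG * KF, t ∩ F ⁻¹' t', Filter.inter_mem ht hc,
    hKG.comp (hKF.mono Set.inter_subset_left) (fun y hy => hy.2)⟩

theorem locallyLipschitzOn_prodMk {α β γ : Type} [PseudoEMetricSpace α]
    [PseudoEMetricSpace β] [PseudoEMetricSpace γ] {s : Set α} {F : α → β} {G : α → γ}
    (hF : LocallyLipschitzOn s F) (hG : LocallyLipschitzOn s G) :
    LocallyLipschitzOn s (fun x => (F x, G x)) := by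
  intro x hx
  obtain ⟨KF, t, ht, hKF⟩ := hF hx
  obtain ⟨KG, t', ht', hKG⟩ := hG hx
  exact ⟨max KF KG, t ∩ t', Filter.inter_mem ht ht',
    (hKF.mono Set.inter_subset_left).prodMk (hKG.mono Set.inter_subset_right)⟩

theorem locallyLipschitzOn_of_contDiffOn {E F : Type} [NormedAddCommGroup E] [NormedSpace ℝ E]
    [NormedAddCommGroup F] [NormedSpace ℝ F] {s : Set E} (hs : IsOpen s) {G : E → F}
    (hG : ContDiffOn ℝ 1 G s) : LocallyLipschitzOn s G := by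
  intro x hx
  obtain ⟨K, t, ht, hK⟩ := ((hG x hx).contDiffAt (hs.mem_nhds hx)).exists_lipschitzOnWith
  exact ⟨K, t, mem_nhdsWithin_of_mem_nhds ht, hK⟩

theorem CMfd.Smooth.locLip (hu : 𝓜.Smooth u) : 𝓜.LocLip u := by
  intro Φ U hΦ
  exact locallyLipschitzOn_of_contDiffOn (CMfd.isOpen_dom hΦ) ((hu Φ U hΦ).of_le (by norm_num))

theorem CMfd.LocLip.continuousOn (hu : 𝓜.LocLip u) : ContinuousOn u 𝓜.carrier := by
  exact CMfd.continuousOn_iff.2 fun Φ U hΦ => (hu Φ U hΦ).continuousOn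

theorem CMfd.LocLip.add (hu : 𝓜.LocLip u) (hw : 𝓜.LocLip w) : 𝓜.LocLip (fun x => u x + w x) := by
  exact fun Φ U hΦ => (hu Φ U hΦ).add (hw Φ U hΦ)

theorem CMfd.LocLip.sub (hu : 𝓜.LocLip u) (hw : 𝓜.LocLip w) : 𝓜.LocLip (fun x => u x - w x) := by
  exact fun Φ U hΦ => (hu Φ U hΦ).sub (hw Φ U hΦ)

theorem CMfd.LocLip.neg (hu : 𝓜.LocLip u) : 𝓜.LocLip (fun x => - u x) := by
  exact fun Φ U hΦ => (hu Φ U hΦ).neg

/-- outer locally Lipschitz function of two variables. -/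
theorem CMfd.LocLip.comp₂ {G : ℝ × ℝ → ℝ} (hG : LocallyLipschitz G) (hu : 𝓜.LocLip u)
    (hw : 𝓜.LocLip w) : 𝓜.LocLip (fun x => G (u x, w x)) := by
  exact fun Φ U hΦ => locallyLipschitzOn_comp_of_locallyLipschitz (G := G)
    (F := fun z => ((u ∘ Φ) z, (w ∘ Φ) z)) hG (locallyLipschitzOn_prodMk (hu Φ U hΦ) (hw Φ U hΦ))

theorem CMfd.LocLip.mul (hu : 𝓜.LocLip u) (hw : 𝓜.LocLip w) : 𝓜.LocLip (fun x => u x * w x) := by
  have hG : LocallyLipschitz (fun p : ℝ × ℝ => p.1 * p.2) :=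
    (contDiff_fst.mul contDiff_snd : ContDiff ℝ 1 fun p : ℝ × ℝ => p.1 * p.2).locallyLipschitz
  exact CMfd.LocLip.comp₂ hG hu hw

/-- outer locally Lipschitz function. -/
theorem CMfd.LocLip.comp {χ : ℝ → ℝ} (hχ : LocallyLipschitz χ) (hu : 𝓜.LocLip u) :
    𝓜.LocLip (fun x => χ (u x)) := by
  exact fun Φ U hΦ => locallyLipschitzOn_comp_of_locallyLipschitz (G := χ) (F := u ∘ Φ) hχ
    (hu Φ U hΦ)

theorem CMfd.LocLip.const_mul (c : ℝ) (hu : 𝓜.LocLip u) : 𝓜.LocLip (fun x => c * u x) := by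
  have hG : LocallyLipschitz (fun p : ℝ => c * p) :=
    (contDiff_const.mul contDiff_id : ContDiff ℝ 1 fun p : ℝ => c * p).locallyLipschitz
  exact hu.comp hG

theorem CMfd.LocLip.max (hu : 𝓜.LocLip u) (hw : 𝓜.LocLip w) :
    𝓜.LocLip (fun x => max (u x) (w x)) := by
  exact CMfd.LocLip.comp₂ (G := fun p => Max.max p.1 p.2) lipschitzWith_max.locallyLipschitz hu hw

theorem CMfd.LocLip.min (hu : 𝓜.LocLip u) (hw : 𝓜.LocLip w) :
    𝓜.LocLip (fun x => min (u x) (w x)) := by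
  exact CMfd.LocLip.comp₂ (G := fun p => Min.min p.1 p.2) lipschitzWith_min.locallyLipschitz hu hw

theorem CMfd.LocLip.abs (hu : 𝓜.LocLip u) : 𝓜.LocLip (fun x => |u x|) := by
  exact hu.max hu.neg

theorem CMfd.LocLip.congr (hu : 𝓜.LocLip u) (huw : Set.EqOn u w 𝓜.carrier) : 𝓜.LocLip w := by
  intro Φ U hΦ x hx
  obtain ⟨K, t, ht, hK⟩ := hu Φ U hΦ hx
  refine ⟨K, t ∩ U, Filter.inter_mem ht self_mem_nhdsWithin, ?_⟩
  intro a ha b hb
  have h1 := hK ha.1 hb.1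
  simp only [Function.comp_apply] at h1 ⊢
  rwa [huw (CMfd.mem_carrier hΦ ha.2), huw (CMfd.mem_carrier hΦ hb.2)] at h1

/-- Rademacher. -/
theorem CMfd.LocLip.ae_diffAt (hh : IsMetric 𝓜 h) (hu : 𝓜.LocLip u) :
    ∀ᵐ x ∂(hvol 𝓜 h), 𝓜.DiffAt u x := by
  rw [ae_hvol_iff hh]
  intro Φ U hΦ
  have hU := CMfd.isOpen_dom hΦ
  filter_upwards [ae_differentiableAt_of_locallyLipschitzOn hU (hu Φ U hΦ),
    ae_restrict_mem hU.measurableSet] with z hz hzU
  exact (CMfd.diffAt_iff hΦ hzU).2 hz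

/-- the gradient of a locally Lipschitz function is bounded on compact sets. -/
theorem CMfd.LocLip.exists_gradSq_le (hh : IsMetric 𝓜 h) (hu : 𝓜.LocLip u) {K : Set V}
    (hK : IsCompact K) (hsub : K ⊆ 𝓜.carrier) : ∃ C : ℝ, ∀ x ∈ K, gradSq 𝓜 h u x ≤ C := by
  obtain ⟨m, Φ, r, hr, hΦ, hcov⟩ := 𝓜.exists_finite_cover hK hsub
  have hcb : ∀ i, Metric.closedBall (0 : CE ι) (r i) ⊆ Metric.ball 0 (2 * r i) :=
    fun i => Metric.closedBall_subset_ball (by linarith [hr i])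
  have h1 : ∀ i, ∃ C : ℝ, ∀ z ∈ Metric.closedBall (0 : CE ι) (r i),
      gradSq 𝓜 h u (Φ i z) ≤ C := by
    intro i
    obtain ⟨C, hC⟩ := exists_bound_dz_of_locallyLipschitzOn Metric.isOpen_ball
      (isCompact_closedBall (0 : CE ι) (r i)) (hcb i) (hu _ _ (hΦ i))
    have hinv : ∀ j k, ∃ M : ℝ, ∀ z ∈ Metric.closedBall (0 : CE ι) (r i),
        ‖(h (Φ i) z)⁻¹ k j‖ ≤ M := by
      intro j k
      have hc : ContinuousOn (fun y => (h (Φ i) y)⁻¹ k j) (Metric.ball 0 (2 * r i)) :=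
        (contDiffOn_matInv (fun a b => hh.smooth (hΦ i) a b)
          (fun w hw => hh.det_ne_zero (hΦ i) hw) k j).continuousOn
      exact (isCompact_closedBall (0 : CE ι) (r i)).exists_bound_of_continuousOn (hc.mono (hcb i))
    choose M hM using hinv
    refine ⟨∑ j, ∑ k, C * M j k * C, fun z hz => ?_⟩
    rw [gradSq_eq_dualIP hh u (hΦ i) (hcb i hz), dualIP_eq_sum]
    refine (Complex.re_le_norm _).trans ?_
    refine (norm_sum_le _ _).trans (Finset.sum_le_sum fun j _ => ?_)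
    refine (norm_sum_le _ _).trans (Finset.sum_le_sum fun k _ => ?_)
    rw [norm_mul, norm_mul, RCLike.norm_conj]
    have hC0 : 0 ≤ C := (norm_nonneg _).trans (hC z hz j)
    have a1 : ‖grad10 (u ∘ Φ i) z j‖ ≤ C := hC z hz j
    have a2 : ‖grad10 (u ∘ Φ i) z k‖ ≤ C := hC z hz k
    have a3 := hM j k z hz
    have hM0 : 0 ≤ M j k := (norm_nonneg _).trans a3
    exact mul_le_mul (mul_le_mul a1 a3 (norm_nonneg _) hC0) a2 (norm_nonneg _)
      (mul_nonneg hC0 hM0)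
  choose C hC using h1
  refine ⟨∑ i, |C i|, fun x hx => ?_⟩
  obtain ⟨i, z, hz, rfl⟩ := Set.mem_iUnion.1 (hcov hx)
  calc gradSq 𝓜 h u (Φ i z) ≤ C i := hC i z (Metric.ball_subset_closedBall hz)
    _ ≤ |C i| := le_abs_self _
    _ ≤ ∑ i, |C i| := Finset.single_le_sum (f := fun i => |C i|) (fun j _ => abs_nonneg _)
        (Finset.mem_univ i)

/-- measurability of the pairing, for ARBITRARY functions. -/
theorem aestronglyMeasurable_gradInner (hh : IsMetric 𝓜 h) (u w : V → ℝ) :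
    AEStronglyMeasurable (gradInner 𝓜 h u w) (hvol 𝓜 h) := by
  rw [aestronglyMeasurable_hvol_iff hh]
  intro Φ U hΦ
  have hU := CMfd.isOpen_dom hΦ
  have h1 := measurable_dualIP_grad10_indicator hU
    (fun j k => (hh.smooth hΦ j k).continuousOn) (fun y hy => hh.det_ne_zero hΦ hy)
    (u ∘ Φ) (w ∘ Φ)
  refine h1.aestronglyMeasurable.congr ?_
  filter_upwards [ae_restrict_mem hU.measurableSet] with z hz
  rw [Set.indicator_of_mem hz]
  exact (gradInner_eq hh u w hΦ hz).symm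

theorem exists_abs_gradInner_le (hh : IsMetric 𝓜 h) (hφ : 𝓜.LocLip φ)
    (hc : 𝓜.CSupp φ) (hu : 𝓜.LocLip u) :
    ∃ C : ℝ, ∀ x ∈ 𝓜.carrier, |gradInner 𝓜 h φ u x| ≤ C := by
  obtain ⟨K, hK, hsub, h0⟩ := hc
  obtain ⟨C1, hC1⟩ := hφ.exists_gradSq_le hh hK hsub
  obtain ⟨C2, hC2⟩ := hu.exists_gradSq_le hh hK hsub
  refine ⟨Real.sqrt C1 * Real.sqrt C2, fun x hx => ?_⟩
  by_cases hxK : x ∈ K
  · refine (abs_gradInner_le hh hx φ u).trans ?_
    exact mul_le_mul (Real.sqrt_le_sqrt (hC1 x hxK)) (Real.sqrt_le_sqrt (hC2 x hxK))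
      (Real.sqrt_nonneg _) (Real.sqrt_nonneg _)
  · rw [gradInner_eq_zero_of_notMem_left hK.isClosed h0 h u hx hxK, abs_zero]
    positivity

theorem integrable_gradInner_of_csupp_left (hh : IsMetric 𝓜 h) (hφ : 𝓜.LocLip φ)
    (hc : 𝓜.CSupp φ) (hu : 𝓜.LocLip u) : Integrable (gradInner 𝓜 h φ u) (hvol 𝓜 h) := by
  obtain ⟨C, hC⟩ := exists_abs_gradInner_le hh hφ hc hu
  exact integrable_hvol_of_bdd_csupp hh (aestronglyMeasurable_gradInner hh φ u)
    (hc.gradInner_left h u) hC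

theorem integrable_gradInner_of_csupp_right (hh : IsMetric 𝓜 h) (hφ : 𝓜.LocLip φ)
    (hc : 𝓜.CSupp φ) (hu : 𝓜.LocLip u) : Integrable (gradInner 𝓜 h u φ) (hvol 𝓜 h) := by
  exact (integrable_hvol_congr fun x hx => gradInner_comm hh hx φ u).1
    (integrable_gradInner_of_csupp_left hh hφ hc hu)

/-- with a continuous weight. -/
theorem integrable_mul_gradInner_of_csupp (hh : IsMetric 𝓜 h) (hφ : 𝓜.LocLip φ)
    (hc : 𝓜.CSupp φ) (hu : 𝓜.LocLip u) (hw : ContinuousOn w 𝓜.carrier) :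
    Integrable (fun x => w x * gradInner 𝓜 h φ u x) (hvol 𝓜 h) := by
  obtain ⟨C, hC⟩ := exists_abs_gradInner_le hh hφ hc hu
  obtain ⟨K, hK, hsub, h0⟩ := hc
  obtain ⟨M, hM⟩ := hK.exists_bound_of_continuousOn (hw.mono hsub)
  have hc' : 𝓜.CSupp φ := ⟨K, hK, hsub, h0⟩
  refine integrable_hvol_of_bdd_csupp (C := |M| * |C|) hh
    ((aestronglyMeasurable_hvol_of_continuousOn hw).mul (aestronglyMeasurable_gradInner hh φ u))
    ((hc'.gradInner_left h u).mul_left w) fun x hx => ?_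
  by_cases hxK : x ∈ K
  · rw [norm_mul]
    exact mul_le_mul ((hM x hxK).trans (le_abs_self _)) ((hC x hx).trans (le_abs_self _))
      (norm_nonneg _) (abs_nonneg _)
  · rw [gradInner_eq_zero_of_notMem_left hK.isClosed h0 h u hx hxK, mul_zero, norm_zero]
    positivity

theorem integrable_mul_lap_of_csupp (hh : IsMetric 𝓜 h) (hφ : ContinuousOn φ 𝓜.carrier)
    (hc : 𝓜.CSupp φ) (hf : 𝓜.Smooth f) :
    Integrable (fun x => φ x * lap 𝓜 h f x) (hvol 𝓜 h) := by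
  exact integrable_hvol_of_csupp hh (hφ.mul (smooth_lap hh hf).continuousOn) (hc.mul_right _)

theorem integrable_mul_lap_of_csupp' (hh : IsMetric 𝓜 h) (hf : ContinuousOn f 𝓜.carrier)
    (hφ : 𝓜.Smooth φ) (hc : 𝓜.CSupp φ) :
    Integrable (fun x => f x * lap 𝓜 h φ x) (hvol 𝓜 h) := by
  exact integrable_hvol_of_csupp hh (hf.mul (smooth_lap hh hφ).continuousOn)
    ((hc.lap h).mul_left _)

end loclip

/-! ### Green's identities -/

section green

/-- one piece: `φ` supported in one parametrisation. -/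
theorem integral_mul_lap_of_support (hK : IsKahler 𝓜 h) {Φ : CE ι → V} {U C : Set (CE ι)}
    (hΦ : 𝓜.IsHol Φ U) (hC : IsCompact C) (hCU : C ⊆ U) (hφ : 𝓜.LocLip φ)
    (h0 : ∀ y ∈ 𝓜.carrier, y ∉ Φ '' C → φ y = 0) (hf : 𝓜.Smooth f) :
    ∫ x, φ x * lap 𝓜 h f x ∂(hvol 𝓜 h) = - ∫ x, gradInner 𝓜 h φ f x ∂(hvol 𝓜 h) := by
  have hh : IsMetric 𝓜 h := hK.toIsMetric
  have hU := CMfd.isOpen_dom hΦ
  have hcl : IsClosed (Φ '' C) :=
    (hC.image_of_continuousOn ((𝓜.isParam hΦ).continuousOn.mono hCU)).isClosed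
  have hsubs : Φ '' C ⊆ Φ '' U := Set.image_mono hCU
  rw [integral_hvol_of_support_real hh hΦ (fun x => φ x * lap 𝓜 h f x)
      (fun x hx hxU => by rw [h0 x hx (fun hxC => hxU (hsubs hxC)), zero_mul]),
    integral_hvol_of_support_real hh hΦ (gradInner 𝓜 h φ f)
      (fun x hx hxU => gradInner_eq_zero_of_notMem_left hcl h0 h f hx
        (fun hxC => hxU (hsubs hxC)))]
  have h1 := chart_green_of_lipschitz (H := h Φ) (φ := φ ∘ Φ) (f := f ∘ Φ) hU hC hCU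
    (fun j k => (hh.smooth hΦ j k).of_le (by norm_num)) (fun w hw => hh.posDef hΦ w hw)
    (fun w hw => hK.closed Φ U hΦ w hw) (hφ Φ U hΦ)
    (fun z hz hzC => CMfd.comp_eq_zero_of_notMem hΦ h0 hCU z hz hzC)
    ((hf Φ U hΦ).of_le (WithTop.coe_le_coe.2 le_top))
  have e1 : ∫ z in U, φ (Φ z) * lap 𝓜 h f (Φ z) * (h Φ z).det.re
      = ∫ w in U, (φ ∘ Φ) w * lapP (h Φ w) (f ∘ Φ) w * (h Φ w).det.re :=
    setIntegral_congr_fun hU.measurableSet (fun z hz => by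
      simp only [Function.comp_apply, lap_eq_lapP hh hf hΦ hz])
  have e2 : ∫ z in U, gradInner 𝓜 h φ f (Φ z) * (h Φ z).det.re
      = ∫ w in U, dualIP (h Φ w) (grad10 (φ ∘ Φ) w) (grad10 (f ∘ Φ) w) * (h Φ w).det.re :=
    setIntegral_congr_fun hU.measurableSet (fun z hz => by
      simp only [gradInner_eq hh φ f hΦ hz])
  rw [e1, e2]
  exact h1

/-- **Green I**: `∫ φ Δf = - ∫ ⟨∂φ,∂f⟩`, `φ` locally Lipschitz with compact support, `f` smooth. -/
theorem integral_mul_lap (hK : IsKahler 𝓜 h) (hφ : 𝓜.LocLip φ) (hc : 𝓜.CSupp φ)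
    (hf : 𝓜.Smooth f) :
    ∫ x, φ x * lap 𝓜 h f x ∂(hvol 𝓜 h) = - ∫ x, gradInner 𝓜 h φ f x ∂(hvol 𝓜 h) := by
  have hh : IsMetric 𝓜 h := hK.toIsMetric
  obtain ⟨m, χ, Φ, r, hχ, _hχ01, hr, hΦ, hχ0, hsum⟩ := hc.exists_decomp
  have hcb : ∀ i, Metric.closedBall (0 : CE ι) (r i) ⊆ Metric.ball 0 (2 * r i) :=
    fun i => Metric.closedBall_subset_ball (by linarith [hr i])
  have hχs : ∀ i, 𝓜.Smooth (χ i) := fun i => CMfd.smooth_of_contDiff (hχ i)
  have hL : ∀ i, 𝓜.LocLip (fun x => χ i x * φ x) := fun i => (hχs i).locLip.mul hφ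
  have hcs : ∀ i, 𝓜.CSupp (fun x => χ i x * φ x) := fun i => hc.mul_left (χ i)
  have hpiece : ∀ i, ∫ x, (χ i x * φ x) * lap 𝓜 h f x ∂(hvol 𝓜 h)
      = - ∫ x, gradInner 𝓜 h (fun x => χ i x * φ x) f x ∂(hvol 𝓜 h) := fun i =>
    integral_mul_lap_of_support hK (hΦ i) (isCompact_closedBall 0 (r i)) (hcb i) (hL i)
      (fun y hy hyn => by simp only [hχ0 i y hy hyn, zero_mul]) hf
  have h1 : ∫ x, φ x * lap 𝓜 h f x ∂(hvol 𝓜 h)
      = ∑ i, ∫ x, (χ i x * φ x) * lap 𝓜 h f x ∂(hvol 𝓜 h) := by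
    rw [← integral_finsetSum _ fun i _ =>
      integrable_mul_lap_of_csupp hh (hL i).continuousOn (hcs i) hf]
    refine integral_hvol_congr fun x hx => ?_
    rw [← Finset.sum_mul, ← hsum x hx]
  have h2 : ∫ x, gradInner 𝓜 h φ f x ∂(hvol 𝓜 h)
      = ∑ i, ∫ x, gradInner 𝓜 h (fun x => χ i x * φ x) f x ∂(hvol 𝓜 h) := by
    rw [← integral_finsetSum _ fun i _ =>
      integrable_gradInner_of_csupp_left hh (hL i) (hcs i) hf.locLip]
    refine integral_congr_ae ?_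
    filter_upwards [hφ.ae_diffAt hh, ae_mem_carrier 𝓜 h] with x hxd hx
    rw [← gradInner_sum_left h Finset.univ (fun i _ => ((hχs i).diffAt hx).mul hxd) f]
    exact gradInner_congr_left h hx (eventually_nhdsWithin_of_forall hsum)
  rw [h1, h2, ← Finset.sum_neg_distrib]
  exact Finset.sum_congr rfl fun i _ => hpiece i

/-- **Green I'**: `∫ u Δφ = - ∫ ⟨∂u,∂φ⟩`, `φ` smooth with compact support, `u` locally Lipschitz
(multiply `u` by a cutoff equal to `1` near the support of `φ`). -/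
theorem integral_mul_lap' (hK : IsKahler 𝓜 h) (hφ : 𝓜.Smooth φ) (hc : 𝓜.CSupp φ)
    (hu : 𝓜.LocLip u) :
    ∫ x, u x * lap 𝓜 h φ x ∂(hvol 𝓜 h) = - ∫ x, gradInner 𝓜 h u φ x ∂(hvol 𝓜 h) := by
  obtain ⟨K, hKc, hsub, h0⟩ := hc
  obtain ⟨χ, hχ, _hχ01, ⟨N, hN, hKN, hN1⟩, K', hK', hK'sub, hχ0⟩ :=
    𝓜.exists_cutoff hKc hsub isOpen_univ (Set.subset_univ K)
  have hL : 𝓜.LocLip (fun x => χ x * u x) := (CMfd.smooth_of_contDiff hχ).locLip.mul hu
  have hcs : 𝓜.CSupp (fun x => χ x * u x) :=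
    ⟨K', hK', hK'sub.trans Set.inter_subset_left,
      fun x hx hxK => by simp only [hχ0 x hx hxK, zero_mul]⟩
  have h1 := integral_mul_lap hK hL hcs hφ
  have e1 : ∫ x, (χ x * u x) * lap 𝓜 h φ x ∂(hvol 𝓜 h) = ∫ x, u x * lap 𝓜 h φ x ∂(hvol 𝓜 h) := by
    refine integral_hvol_congr fun x hx => ?_
    by_cases hxK : x ∈ K
    · rw [hN1 x (hKN hxK), one_mul]
    · rw [lap_eq_zero_of_notMem hKc.isClosed h0 h hx hxK, mul_zero, mul_zero]
  have e2 : ∫ x, gradInner 𝓜 h (fun x => χ x * u x) φ x ∂(hvol 𝓜 h)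
      = ∫ x, gradInner 𝓜 h u φ x ∂(hvol 𝓜 h) := by
    refine integral_hvol_congr fun x hx => ?_
    by_cases hxK : x ∈ K
    · refine gradInner_congr_left h hx ?_
      filter_upwards [mem_nhdsWithin_of_mem_nhds (hN.mem_nhds (hKN hxK))] with y hy
      rw [hN1 y hy, one_mul]
    · rw [gradInner_eq_zero_of_notMem_right hKc.isClosed h0 h _ hx hxK,
        gradInner_eq_zero_of_notMem_right hKc.isClosed h0 h _ hx hxK]
  rw [e1, e2] at h1
  exact h1

/-- **Green II**. -/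
theorem integral_mul_lap_comm (hK : IsKahler 𝓜 h) (hφ : 𝓜.Smooth φ) (hc : 𝓜.CSupp φ)
    (hf : 𝓜.Smooth f) :
    ∫ x, φ x * lap 𝓜 h f x ∂(hvol 𝓜 h) = ∫ x, f x * lap 𝓜 h φ x ∂(hvol 𝓜 h) := by
  rw [integral_mul_lap hK hφ.locLip hc hf, integral_mul_lap' hK hφ hc hf.locLip]
  congr 1
  exact integral_hvol_congr fun x hx => gradInner_comm hK.toIsMetric hx φ f

theorem integral_lap_eq_zero (hK : IsKahler 𝓜 h) (hφ : 𝓜.Smooth φ) (hc : 𝓜.CSupp φ) :
    ∫ x, lap 𝓜 h φ x ∂(hvol 𝓜 h) = 0 := by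
  have h1 := integral_mul_lap' hK hφ hc (CMfd.smooth_const (𝓜 := 𝓜) 1).locLip
  simp only [one_mul, gradInner_const_left, integral_zero, neg_zero] at h1
  exact h1

theorem integral_gradSq_eq (hK : IsKahler 𝓜 h) (hφ : 𝓜.Smooth φ) (hc : 𝓜.CSupp φ) :
    ∫ x, gradSq 𝓜 h φ x ∂(hvol 𝓜 h) = - ∫ x, φ x * lap 𝓜 h φ x ∂(hvol 𝓜 h) := by
  rw [integral_mul_lap hK hφ.locLip hc hφ, neg_neg]
  rfl

/-- **weighted Green I**: `∫ φ (w Δf + ⟨∂w,∂f⟩) = - ∫ w ⟨∂φ,∂f⟩`. -/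
theorem integral_mul_lap_weight (hK : IsKahler 𝓜 h) (hφ : 𝓜.LocLip φ) (hc : 𝓜.CSupp φ)
    (hw : 𝓜.Smooth w) (hf : 𝓜.Smooth f) :
    ∫ x, φ x * (w x * lap 𝓜 h f x + gradInner 𝓜 h w f x) ∂(hvol 𝓜 h)
      = - ∫ x, w x * gradInner 𝓜 h φ f x ∂(hvol 𝓜 h) := by
  have hh : IsMetric 𝓜 h := hK.toIsMetric
  have h1 := integral_mul_lap hK (hφ.mul hw.locLip) (hc.mul_right w) hf
  have i1 : Integrable (fun x => (φ x * w x) * lap 𝓜 h f x) (hvol 𝓜 h) :=
    integrable_mul_lap_of_csupp hh (hφ.mul hw.locLip).continuousOn (hc.mul_right w) hf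
  have i2 : Integrable (fun x => φ x * gradInner 𝓜 h w f x) (hvol 𝓜 h) :=
    integrable_hvol_of_csupp hh (hφ.continuousOn.mul (smooth_gradInner hh hw hf).continuousOn)
      (hc.mul_right _)
  have i3 : Integrable (fun x => w x * gradInner 𝓜 h φ f x) (hvol 𝓜 h) :=
    integrable_mul_gradInner_of_csupp hh hφ hc hf.locLip hw.continuousOn
  have h2 : ∫ x, gradInner 𝓜 h (fun x => φ x * w x) f x ∂(hvol 𝓜 h)
      = ∫ x, φ x * gradInner 𝓜 h w f x ∂(hvol 𝓜 h)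
        + ∫ x, w x * gradInner 𝓜 h φ f x ∂(hvol 𝓜 h) := by
    rw [← integral_add i2 i3]
    refine integral_congr_ae ?_
    filter_upwards [hφ.ae_diffAt hh, ae_mem_carrier 𝓜 h] with x hxd hx
    exact gradInner_mul_left h hx hxd (hw.diffAt hx) f
  have h3 : ∫ x, φ x * (w x * lap 𝓜 h f x + gradInner 𝓜 h w f x) ∂(hvol 𝓜 h)
      = ∫ x, (φ x * w x) * lap 𝓜 h f x ∂(hvol 𝓜 h)
        + ∫ x, φ x * gradInner 𝓜 h w f x ∂(hvol 𝓜 h) := by
    rw [← integral_add i1 i2]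
    refine integral_congr_ae (Filter.Eventually.of_forall fun x => ?_)
    simp only
    ring
  rw [h3, h1, h2]
  ring

/-- Green on an open submanifold: `f` is only smooth on `carrier ∩ O`, `φ` compactly supported there. -/
theorem integral_mul_lap_restr (hK : IsKahler 𝓜 h) {O : Set V} (hO : IsOpen O)
    (hφ : (𝓜.restr O hO).LocLip φ) (hc : (𝓜.restr O hO).CSupp φ) (h0 : ∀ x, x ∉ O → φ x = 0)
    (hf : (𝓜.restr O hO).Smooth f) :
    ∫ x, φ x * lap 𝓜 h f x ∂(hvol 𝓜 h) = - ∫ x, gradInner 𝓜 h φ f x ∂(hvol 𝓜 h) := by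
  have hh : IsMetric 𝓜 h := hK.toIsMetric
  have h1 := integral_mul_lap (hK.restr hO) hφ hc hf
  obtain ⟨K, hKc, hsub, hK0⟩ := hc
  have hz : ∀ x ∈ 𝓜.carrier, x ∉ K → φ x = 0 := by
    intro x hx hxK
    by_cases hxO : x ∈ O
    · exact hK0 x ⟨hx, hxO⟩ hxK
    · exact h0 x hxO
  rw [integral_hvol_congr (f' := fun x => φ x * lap 𝓜 h f x) (fun x hx => by
      rw [lap_restr_of_smooth hO (hh.restr hO) hf hx]),
    integral_hvol_congr (f' := gradInner 𝓜 h φ f) (fun x hx => gradInner_restr hh hO hx φ f),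
    hvol_restr hh.toIsHForm hO,
    setIntegral_eq_integral_of_ae_compl_eq_zero (Filter.Eventually.of_forall fun x hx => by
      rw [h0 x hx, zero_mul]),
    setIntegral_eq_integral_of_ae_compl_eq_zero (ae_hvol_of_forall_mem fun x hx hxO =>
      gradInner_eq_zero_of_notMem_left hKc.isClosed hz h f hx (fun hxK => hxO (hsub hxK).2))] at h1
  exact h1

/-- the energy identity behind Caccioppoli:
`∫ φ² |∂u|² = - ∫ φ² u Δu - 2 ∫ φ u ⟨∂φ,∂u⟩`. -/
theorem integral_sq_mul_gradSq (hK : IsKahler 𝓜 h) (hφ : 𝓜.LocLip φ) (hc : 𝓜.CSupp φ)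
    (hu : 𝓜.Smooth u) :
    ∫ x, φ x ^ 2 * gradSq 𝓜 h u x ∂(hvol 𝓜 h) =
      - ∫ x, φ x ^ 2 * (u x * lap 𝓜 h u x) ∂(hvol 𝓜 h)
        - 2 * ∫ x, φ x * u x * gradInner 𝓜 h φ u x ∂(hvol 𝓜 h) := by
  have hh : IsMetric 𝓜 h := hK.toIsMetric
  have hL : 𝓜.LocLip (fun x => (φ x * φ x) * u x) := (hφ.mul hφ).mul hu.locLip
  have hcs : 𝓜.CSupp (fun x => (φ x * φ x) * u x) := (hc.mul_right φ).mul_right u
  have h1 := integral_mul_lap hK hL hcs hu
  have i2 : Integrable (fun x => φ x ^ 2 * gradSq 𝓜 h u x) (hvol 𝓜 h) :=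
    integrable_hvol_of_csupp hh ((hφ.continuousOn.pow 2).mul (smooth_gradSq hh hu).continuousOn)
      ((hc.pow two_ne_zero).mul_right _)
  have i3 : Integrable (fun x => φ x * u x * gradInner 𝓜 h φ u x) (hvol 𝓜 h) :=
    integrable_mul_gradInner_of_csupp hh hφ hc hu.locLip (hφ.continuousOn.mul hu.continuousOn)
  have h2 : ∫ x, gradInner 𝓜 h (fun x => (φ x * φ x) * u x) u x ∂(hvol 𝓜 h)
      = ∫ x, φ x ^ 2 * gradSq 𝓜 h u x ∂(hvol 𝓜 h)
        + 2 * ∫ x, φ x * u x * gradInner 𝓜 h φ u x ∂(hvol 𝓜 h) := by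
    rw [← integral_const_mul, ← integral_add i2 (i3.const_mul 2)]
    refine integral_congr_ae ?_
    filter_upwards [hφ.ae_diffAt hh, ae_mem_carrier 𝓜 h] with x hxd hx
    rw [gradInner_mul_left h hx (hxd.mul hxd) (hu.diffAt hx) u, gradInner_mul_left h hx hxd hxd u,
      gradInner_self]
    ring
  have h3 : ∫ x, φ x ^ 2 * (u x * lap 𝓜 h u x) ∂(hvol 𝓜 h)
      = ∫ x, ((φ x * φ x) * u x) * lap 𝓜 h u x ∂(hvol 𝓜 h) := by
    refine integral_congr_ae (Filter.Eventually.of_forall fun x => ?_)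
    simp only
    ring
  rw [h3, h1, h2]
  ring

/-- **Caccioppoli**: `∫ φ² |∂u|² ≤ 4 ∫ u² |∂φ|² - 2 ∫ φ² u Δu`. -/
theorem caccioppoli (hK : IsKahler 𝓜 h) (hφ : 𝓜.LocLip φ) (hc : 𝓜.CSupp φ) (hu : 𝓜.Smooth u) :
    ∫ x, φ x ^ 2 * gradSq 𝓜 h u x ∂(hvol 𝓜 h) ≤
      4 * ∫ x, u x ^ 2 * gradSq 𝓜 h φ x ∂(hvol 𝓜 h)
        - 2 * ∫ x, φ x ^ 2 * (u x * lap 𝓜 h u x) ∂(hvol 𝓜 h) := by
  have hh : IsMetric 𝓜 h := hK.toIsMetric
  have h1 := integral_sq_mul_gradSq hK hφ hc hu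
  have i2 : Integrable (fun x => φ x ^ 2 * gradSq 𝓜 h u x) (hvol 𝓜 h) :=
    integrable_hvol_of_csupp hh ((hφ.continuousOn.pow 2).mul (smooth_gradSq hh hu).continuousOn)
      ((hc.pow two_ne_zero).mul_right _)
  have i3 : Integrable (fun x => φ x * u x * gradInner 𝓜 h φ u x) (hvol 𝓜 h) :=
    integrable_mul_gradInner_of_csupp hh hφ hc hu.locLip (hφ.continuousOn.mul hu.continuousOn)
  have i4 : Integrable (fun x => u x ^ 2 * gradSq 𝓜 h φ x) (hvol 𝓜 h) :=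
    integrable_mul_gradInner_of_csupp hh hφ hc hφ (hu.continuousOn.pow 2)
  have h2 : - (2 * ∫ x, φ x * u x * gradInner 𝓜 h φ u x ∂(hvol 𝓜 h))
      ≤ (1 / 2) * ∫ x, φ x ^ 2 * gradSq 𝓜 h u x ∂(hvol 𝓜 h)
        + 2 * ∫ x, u x ^ 2 * gradSq 𝓜 h φ x ∂(hvol 𝓜 h) := by
    rw [← integral_const_mul, ← integral_const_mul, ← integral_const_mul, ← integral_neg,
      ← integral_add (i2.const_mul _) (i4.const_mul _)]
    refine integral_hvol_mono (i3.const_mul 2).neg ((i2.const_mul _).add (i4.const_mul _))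
      fun x hx => ?_
    have hcs := gradInner_sq_le hh hx φ u
    set G := gradInner 𝓜 h φ u x
    set a := gradSq 𝓜 h φ x
    set b := gradSq 𝓜 h u x
    have ha : 0 ≤ a := by
      have := hh.posDef_chosen hx
      exact dualIP_self_nonneg this _
    have hb : 0 ≤ b := by
      have := hh.posDef_chosen hx
      exact dualIP_self_nonneg this _
    -- `-2 φ u G ≤ φ² b / 2 + 2 u² a`
    have key : (2 * (φ x * u x * G)) ^ 2 ≤ (1 / 2 * (φ x ^ 2 * b) + 2 * (u x ^ 2 * a)) ^ 2 := by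
      have e1 : (2 * (φ x * u x * G)) ^ 2 = 4 * (φ x ^ 2 * u x ^ 2) * G ^ 2 := by ring
      have e2 : 4 * (φ x ^ 2 * u x ^ 2) * G ^ 2 ≤ 4 * (φ x ^ 2 * u x ^ 2) * (a * b) :=
        mul_le_mul_of_nonneg_left hcs (by positivity)
      nlinarith [sq_nonneg (1 / 2 * (φ x ^ 2 * b) - 2 * (u x ^ 2 * a))]
    have hnn : 0 ≤ 1 / 2 * (φ x ^ 2 * b) + 2 * (u x ^ 2 * a) := by positivity
    have := abs_le_of_sq_le_sq' key hnn
    linarith [this.1]
  linarith

/-- sign version: `∫ φ f ≥ 0` for all test functions `φ ≥ 0` implies `f ≥ 0`. -/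
theorem nonneg_of_forall_integral_mul_nonneg (hh : IsMetric 𝓜 h) (hf : ContinuousOn f 𝓜.carrier)
    (h0 : ∀ φ : V → ℝ, 𝓜.Smooth φ → 𝓜.CSupp φ → (∀ x, 0 ≤ φ x) →
      0 ≤ ∫ x, φ x * f x ∂(hvol 𝓜 h)) :
    ∀ x ∈ 𝓜.carrier, 0 ≤ f x := by
  intro x₀ hx₀
  by_contra hneg
  rw [not_le] at hneg
  have h1 : ∀ᶠ y in 𝓝[𝓜.carrier] x₀, f y < 0 := (hf x₀ hx₀).eventually (Iio_mem_nhds hneg)
  obtain ⟨O, hO, hxO, hOS⟩ := mem_nhdsWithin.1 h1
  obtain ⟨b, Φ, r, hb, hb01, hb1, _hbc, hbO, hr, hΦ, _hΦ0, _hΦO, hb0⟩ :=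
    𝓜.exists_bump hx₀ (hO.mem_nhds hxO)
  have hcb : Metric.closedBall (0 : CE ι) r ⊆ Metric.ball 0 (2 * r) :=
    Metric.closedBall_subset_ball (by linarith)
  have hbs : 𝓜.Smooth b := CMfd.smooth_of_contDiff hb
  have hbcs : 𝓜.CSupp b := ⟨Φ '' Metric.closedBall 0 r,
    (isCompact_closedBall _ _).image_of_continuousOn ((𝓜.isParam hΦ).continuousOn.mono hcb),
    (Set.image_mono hcb).trans (𝓜.isParam hΦ).image_subset, hb0⟩
  have hle : ∀ x ∈ 𝓜.carrier, 0 ≤ -(b x * f x) := by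
    intro x hx
    by_cases hxO' : x ∈ O
    · have : f x < 0 := hOS ⟨hxO', hx⟩
      nlinarith [(hb01 x).1]
    · have : b x = 0 := by
        by_contra hne
        exact hxO' (hbO (subset_tsupport b hne))
      rw [this, zero_mul, neg_zero]
  have hcont : ContinuousOn (fun x => -(b x * f x)) 𝓜.carrier := (hbs.continuousOn.mul hf).neg
  have hint : Integrable (fun x => -(b x * f x)) (hvol 𝓜 h) :=
    integrable_hvol_of_csupp hh hcont (hbcs.mul_right f).neg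
  have h2 : ∫ x, -(b x * f x) ∂(hvol 𝓜 h) = 0 := by
    refine le_antisymm ?_ (integral_hvol_nonneg hle)
    rw [integral_neg]
    linarith [h0 b hbs hbcs (fun x => (hb01 x).1)]
  have h3 := eq_zero_of_integral_hvol_eq_zero hh hcont hle hint h2 x₀ hx₀
  rw [hb1.self_of_nhds, one_mul] at h3
  linarith

/-- fundamental lemma: a continuous function orthogonal to all test functions vanishes. -/
theorem eq_zero_of_forall_integral_mul_eq_zero (hh : IsMetric 𝓜 h) (hf : ContinuousOn f 𝓜.carrier)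
    (h0 : ∀ φ : V → ℝ, 𝓜.Smooth φ → 𝓜.CSupp φ → ∫ x, φ x * f x ∂(hvol 𝓜 h) = 0) :
    ∀ x ∈ 𝓜.carrier, f x = 0 := by
  intro x hx
  have h1 := nonneg_of_forall_integral_mul_nonneg hh hf
    (fun φ hφ hc _ => (h0 φ hφ hc).ge) x hx
  have h2 := nonneg_of_forall_integral_mul_nonneg (f := fun x => - f x) hh hf.neg
    (fun φ hφ hc _ => by
      simp only [mul_neg, integral_neg, h0 φ hφ hc, neg_zero, le_refl]) x hx
  linarith

end green

/-! ### the divergence theorem -/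

section div

variable {X : (CE ι → V) → CE ι → ι → ℂ} {D : V → ℂ}

theorem IsVField.contDiffOn_det_mul (hh : IsMetric 𝓜 h) (hX : IsVField 𝓜 X) {Φ : CE ι → V}
    {U : Set (CE ι)} (hΦ : 𝓜.IsHol Φ U) (k : ι) :
    ContDiffOn ℝ ∞ (fun w => (h Φ w).det * X Φ w k) U :=
  (contDiffOn_det fun a b => hh.smooth hΦ a b).mul (hX.smooth hΦ k)

/-- the divergence is continuous and compactly supported. -/
theorem IsDivOf.continuousOn (hh : IsMetric 𝓜 h) (hX : IsVField 𝓜 X) (hD : IsDivOf 𝓜 h X D) :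
    ContinuousOn D 𝓜.carrier := by
  rw [CMfd.continuousOn_iff]
  intro Φ U hΦ
  have hU := CMfd.isOpen_dom hΦ
  have h1 : ContinuousOn (fun z => (∑ k, dz k (fun w => (h Φ w).det * X Φ w k) z) / (h Φ z).det) U := by
    refine ContinuousOn.div ?_ (contDiffOn_det fun a b => hh.smooth hΦ a b).continuousOn
      (fun z hz => hh.det_ne_zero hΦ hz)
    exact continuousOn_finsetSum _ fun k _ =>
      (contDiffOn_dz hU (hX.contDiffOn_det_mul hh hΦ k)).continuousOn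
  refine h1.congr fun z hz => ?_
  show D (Φ z) = (∑ k, dz k (fun w => (h Φ w).det * X Φ w k) z) / (h Φ z).det
  rw [← hD Φ U hΦ z hz]
  exact (mul_div_cancel_right₀ _ (hh.det_ne_zero hΦ hz)).symm

theorem IsDivOf.eq_zero_of_notMem (hh : IsMetric 𝓜 h) (hD : IsDivOf 𝓜 h X D) {K : Set V}
    (hK : IsClosed K)
    (h0 : ∀ (Φ : CE ι → V) (U : Set (CE ι)), 𝓜.IsHol Φ U → ∀ z ∈ U, Φ z ∉ K → X Φ z = 0)
    {x : V} (hx : x ∈ 𝓜.carrier) (hxK : x ∉ K) : D x = 0 := by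
  obtain ⟨Φ, U, hΦ, z, hz, rfl⟩ := 𝓜.cover x hx
  have hopen : IsOpen (U ∩ Φ ⁻¹' Kᶜ) := (𝓜.isParam hΦ).isOpen_inter_preimage hK.isOpen_compl
  have h1 := hD Φ U hΦ z hz
  have h2 : ∀ k, dz k (fun w => (h Φ w).det * X Φ w k) z = 0 := by
    intro k
    have : (fun w => (h Φ w).det * X Φ w k) =ᶠ[𝓝 z] fun _ => 0 := by
      filter_upwards [hopen.mem_nhds ⟨hz, hxK⟩] with w hw
      rw [h0 Φ U hΦ w hw.1 hw.2, Pi.zero_apply, mul_zero]
    rw [dz_congr this, dz_const]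
  simp only [h2, Finset.sum_const_zero] at h1
  exact (mul_eq_zero.1 h1).resolve_right (hh.det_ne_zero hΦ hz)

theorem IsDivOf.csupp (hh : IsMetric 𝓜 h) (hc : VFieldCSupp 𝓜 X) (hD : IsDivOf 𝓜 h X D) :
    𝓜.CSupp D := by
  obtain ⟨K, hK, hsub, h0⟩ := hc
  exact ⟨K, hK, hsub, fun x hx hxK => hD.eq_zero_of_notMem hh hK.isClosed h0 hx hxK⟩

/-- the pairing `X(χ) = ∑_k X^k ∂_k χ` of a vector field with the differential of a function does not depend
on the parametrisation. -/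
theorem IsVField.pairing_invariant (hX : IsVField 𝓜 X) {χ : V → ℝ} (hχ : 𝓜.Smooth χ)
    {Φ Ψ : CE ι → V} {U W : Set (CE ι)} (hΦ : 𝓜.IsHol Φ U) (hΨ : 𝓜.IsHol Ψ W) {z y : CE ι}
    (hz : z ∈ U) (hy : y ∈ W) (hzy : Φ z = Ψ y) :
    ∑ k, X Φ z k * grad10 (χ ∘ Φ) z k = ∑ k, X Ψ y k * grad10 (χ ∘ Ψ) y k := by
  have hz' : z ∈ U ∩ Φ ⁻¹' (Ψ '' W) := ⟨hz, ⟨y, hy, hzy.symm⟩⟩
  have hτ : (Function.invFunOn Ψ W ∘ Φ) z = y := CMfd.trans_eq hΦ hΨ hy hzy
  have h1 := grad10_trans hχ hΦ hΨ hz'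
  have h2 := hX.compat hΦ hΨ z hz hz'.2
  rw [hτ] at h1
  have hτ' : Function.invFunOn Ψ W (Φ z) = y := hτ
  rw [hτ'] at h2
  rw [h1, h2]
  simp only [Matrix.mulVec, dotProduct, Matrix.transpose_apply, Finset.mul_sum, Finset.sum_mul]
  rw [Finset.sum_comm]
  refine Finset.sum_congr rfl fun a _ => Finset.sum_congr rfl fun b _ => ?_
  ring

/-- **divergence theorem** (any Hermitian metric).  ROUTE: partition of unity `χ_i` near the support `K` of `X`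
(`CMfd.exists_finite_partition`).  `∫ D = ∑_i ∫ χ_i D = ∑_i ∫_{U_i} χ_i ∑_k ∂_k (det H X^k)`
`= - ∑_i ∫_{U_i} ∑_k ∂_k χ_i det H X^k` (`setIntegral_dz_mul`) `= - ∑_i ∫ s_i dV`, where
`s_i (x) = ∑_k X^k ∂_k χ_i` is a global function (`pairing_invariant`), supported in `Φ_i '' closedBall`, and
`∑_i s_i = X(∑ χ_i) = 0` on the carrier (`∑ χ_i = 1` near `K`, `X = 0` off `K`). -/
theorem integral_div_eq_zero (hh : IsMetric 𝓜 h) (hX : IsVField 𝓜 X) (hc : VFieldCSupp 𝓜 X)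
    (hD : IsDivOf 𝓜 h X D) : ∫ x, D x ∂(hvol 𝓜 h) = 0 := by
  obtain ⟨K, hK, hsub, hX0⟩ := hc
  obtain ⟨m, χ, Φ, r, N, hχ, _hχnn, _hχ1, hr, hΦ, _hΦO, hχ0, hN, hKN, hN1⟩ :=
    𝓜.exists_finite_partition hK hsub isOpen_univ (Set.subset_univ K)
  have hcb : ∀ i, Metric.closedBall (0 : CE ι) (r i) ⊆ Metric.ball 0 (2 * r i) :=
    fun i => Metric.closedBall_subset_ball (by linarith [hr i])
  have hχs : ∀ i, 𝓜.Smooth (χ i) := fun i => CMfd.smooth_of_contDiff (hχ i)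
  have hDc := hD.continuousOn hh hX
  have hD0 : ∀ x ∈ 𝓜.carrier, x ∉ K → D x = 0 := fun x hx hxK =>
    hD.eq_zero_of_notMem hh hK.isClosed hX0 hx hxK
  have hCc : ∀ i, IsCompact (Φ i '' Metric.closedBall 0 (r i)) := fun i =>
    (isCompact_closedBall _ _).image_of_continuousOn ((𝓜.isParam (hΦ i)).continuousOn.mono (hcb i))
  have hCsub : ∀ i, Φ i '' Metric.closedBall 0 (r i) ⊆ 𝓜.carrier := fun i =>
    (Set.image_mono (hcb i)).trans (𝓜.isParam (hΦ i)).image_subset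
  -- the global pairing
  let s : Fin m → V → ℂ := fun i x =>
    ∑ k, X (𝓜.pΦ x) (𝓜.co x) k * grad10 (χ i ∘ 𝓜.pΦ x) (𝓜.co x) k
  have hs : ∀ i (Ψ : CE ι → V) (W : Set (CE ι)), 𝓜.IsHol Ψ W → ∀ z ∈ W,
      s i (Ψ z) = ∑ k, X Ψ z k * grad10 (χ i ∘ Ψ) z k := by
    intro i Ψ W hΨ z hz
    have hx := CMfd.mem_carrier hΨ hz
    exact hX.pairing_invariant (hχs i) (𝓜.isHol_pΦ hx) hΨ (𝓜.co_mem hx) hz (𝓜.pΦ_co hx)
  have hsc : ∀ i, ContinuousOn (s i) 𝓜.carrier := by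
    intro i
    rw [CMfd.continuousOn_iff]
    intro Ψ W hΨ
    have h1 : ContinuousOn (fun z => ∑ k, X Ψ z k * grad10 (χ i ∘ Ψ) z k) W :=
      continuousOn_finsetSum _ fun k _ => (hX.smooth hΨ k).continuousOn.mul
        (contDiffOn_grad10 (CMfd.isOpen_dom hΨ) (hχs i Ψ W hΨ)).continuousOn
    exact h1.congr fun z hz => hs i Ψ W hΨ z hz
  have hs0 : ∀ i, ∀ x ∈ 𝓜.carrier, x ∉ Φ i '' Metric.closedBall 0 (r i) → s i x = 0 := by
    intro i x hx hxC
    have h1 : (χ i ∘ 𝓜.pΦ x) =ᶠ[𝓝 (𝓜.co x)] fun _ => 0 :=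
      CMfd.eventually_eq_zero_of_notMem (hCc i).isClosed (hχ0 i) (𝓜.isHol_pΦ hx) (𝓜.co_mem hx)
        (by rw [𝓜.pΦ_co hx]; exact hxC)
    simp only [s, grad10_congr h1, grad10_const, Pi.zero_apply, mul_zero, Finset.sum_const_zero]
  have hscs : ∀ i, 𝓜.CSupp (s i) := fun i => ⟨_, hCc i, hCsub i, hs0 i⟩
  have hsum0 : ∀ x ∈ 𝓜.carrier, ∑ i, s i x = 0 := by
    intro x hx
    by_cases hxK : x ∈ K
    · have hp := 𝓜.isHol_pΦ hx
      have hco := 𝓜.co_mem hx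
      have h1 : (fun w => ∑ i, (χ i ∘ 𝓜.pΦ x) w) =ᶠ[𝓝 (𝓜.co x)] fun _ => 1 := by
        have hcont : ContinuousAt (𝓜.pΦ x) (𝓜.co x) :=
          ((𝓜.isParam hp).differentiableAt hco).continuousAt
        have hmem : 𝓜.pΦ x ⁻¹' N ∈ 𝓝 (𝓜.co x) :=
          hcont (hN.mem_nhds (by rw [𝓜.pΦ_co hx]; exact hKN hxK))
        filter_upwards [hmem] with w hw
        exact hN1 _ hw
      have h2 : ∑ i, grad10 (χ i ∘ 𝓜.pΦ x) (𝓜.co x) = 0 := by
        rw [← grad10_sum Finset.univ (fun i => χ i ∘ 𝓜.pΦ x)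
          (fun i _ => (hχs i).differentiableAt_comp hp hco), grad10_congr h1, grad10_const]
      simp only [s]
      rw [Finset.sum_comm]
      refine Finset.sum_eq_zero fun k _ => ?_
      rw [← Finset.mul_sum]
      have h3 := congrFun h2 k
      rw [Finset.sum_apply] at h3
      rw [h3, Pi.zero_apply, mul_zero]
    · have h1 : X (𝓜.pΦ x) (𝓜.co x) = 0 :=
        hX0 _ _ (𝓜.isHol_pΦ hx) _ (𝓜.co_mem hx) (by rw [𝓜.pΦ_co hx]; exact hxK)
      simp only [s, h1, Pi.zero_apply, zero_mul, Finset.sum_const_zero]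
  -- one piece
  have hpiece : ∀ i, ∫ x, ((χ i x : ℝ) : ℂ) * D x ∂(hvol 𝓜 h) = - ∫ x, s i x ∂(hvol 𝓜 h) := by
    intro i
    have hU : IsOpen (Metric.ball (0 : CE ι) (2 * r i)) := Metric.isOpen_ball
    have hC := isCompact_closedBall (0 : CE ι) (r i)
    have hsubs : Φ i '' Metric.closedBall 0 (r i) ⊆ Φ i '' Metric.ball 0 (2 * r i) :=
      Set.image_mono (hcb i)
    rw [integral_hvol_of_support hh (hΦ i) (fun x => ((χ i x : ℝ) : ℂ) * D x)
        (fun x hx hxU => by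
          rw [hχ0 i x hx (fun hxC => hxU (hsubs hxC)), Complex.ofReal_zero, zero_mul]),
      integral_hvol_of_support hh (hΦ i) (s i)
        (fun x hx hxU => hs0 i x hx (fun hxC => hxU (hsubs hxC)))]
    set F : CE ι → ℂ := fun z => (((χ i ∘ Φ i) z : ℝ) : ℂ) with hF
    set Y : ι → CE ι → ℂ := fun k w => (h (Φ i) w).det * X (Φ i) w k with hY
    have hFs : ContDiffOn ℝ 1 F (Metric.ball 0 (2 * r i)) :=
      (contDiffOn_ofReal (hχs i _ _ (hΦ i))).of_le (by norm_num)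
    have hYs : ∀ k, ContDiffOn ℝ 1 (Y k) (Metric.ball 0 (2 * r i)) := fun k =>
      (hX.contDiffOn_det_mul hh (hΦ i) k).of_le (by norm_num)
    have hF0 : ∀ z ∈ Metric.ball (0 : CE ι) (2 * r i), z ∉ Metric.closedBall (0 : CE ι) (r i) →
        F z = 0 := by
      intro z hz hzC
      have := CMfd.comp_eq_zero_of_notMem (hΦ i) (hχ0 i) (hcb i) z hz hzC
      simp only [hF, Function.comp_apply, this, Complex.ofReal_zero]
    have e1 : ∫ z in Metric.ball (0 : CE ι) (2 * r i),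
        (h (Φ i) z).det.re • (((χ i (Φ i z) : ℝ) : ℂ) * D (Φ i z))
        = ∑ k, ∫ z in Metric.ball (0 : CE ι) (2 * r i), F z * dz k (Y k) z := by
      have i1 : ∀ k, IntegrableOn (fun z => F z * dz k (Y k) z) (Metric.ball 0 (2 * r i)) :=
        fun k => integrableOn_of_continuousOn_of_compact hU hC (hcb i)
          (hFs.continuousOn.mul (ci_continuousOn_dz hU (hYs k) k))
          (fun z hz hzC => by rw [hF0 z hz hzC, zero_mul])
      rw [← integral_finsetSum _ fun k _ => i1 k]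
      refine setIntegral_congr_fun hU.measurableSet fun z hz => ?_
      rw [← Finset.mul_sum, ← hD _ _ (hΦ i) z hz, Complex.real_smul,
        ofReal_det_re_of_isHermitian (hh.herm (hΦ i) z hz)]
      simp only [hF, Function.comp_apply]
      ring
    have e2 : ∫ z in Metric.ball (0 : CE ι) (2 * r i), (h (Φ i) z).det.re • s i (Φ i z)
        = ∑ k, ∫ z in Metric.ball (0 : CE ι) (2 * r i), dz k F z * Y k z := by
      have i2 : ∀ k, IntegrableOn (fun z => dz k F z * Y k z) (Metric.ball 0 (2 * r i)) :=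
        fun k => integrableOn_of_continuousOn_of_compact hU hC (hcb i)
          ((ci_continuousOn_dz hU hFs k).mul (hYs k).continuousOn)
          (fun z hz hzC => by rw [ci_dz_zero hU hC hF0 k z hz hzC, zero_mul])
      rw [← integral_finsetSum _ fun k _ => i2 k]
      refine setIntegral_congr_fun hU.measurableSet fun z hz => ?_
      rw [hs i _ _ (hΦ i) z hz, Complex.real_smul,
        ofReal_det_re_of_isHermitian (hh.herm (hΦ i) z hz), Finset.mul_sum]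
      refine Finset.sum_congr rfl fun k _ => ?_
      rw [grad10_apply]
      simp only [hY]
      ring
    rw [e1, e2, ← Finset.sum_neg_distrib]
    refine Finset.sum_congr rfl fun k _ => ?_
    rw [setIntegral_dz_mul hU hC (hcb i) hFs (hYs k) hF0 k, neg_neg]
  -- conclusion
  have hχc : ∀ i, ContinuousOn (fun x => ((χ i x : ℝ) : ℂ)) 𝓜.carrier := fun i =>
    Complex.continuous_ofReal.comp_continuousOn (hχs i).continuousOn
  have hDcs : 𝓜.CSupp D := ⟨K, hK, hsub, hD0⟩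
  calc ∫ x, D x ∂(hvol 𝓜 h) = ∫ x, ∑ i, ((χ i x : ℝ) : ℂ) * D x ∂(hvol 𝓜 h) := by
        refine integral_hvol_congr fun x hx => ?_
        rw [← Finset.sum_mul]
        by_cases hxK : x ∈ K
        · rw [← Complex.ofReal_sum, hN1 x (hKN hxK), Complex.ofReal_one, one_mul]
        · rw [hD0 x hx hxK, mul_zero]
    _ = ∑ i, ∫ x, ((χ i x : ℝ) : ℂ) * D x ∂(hvol 𝓜 h) :=
        integral_finsetSum _ fun i _ =>
          integrable_hvol_of_csupp hh ((hχc i).mul hDc) (hDcs.mul_left _)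
    _ = ∑ i, - ∫ x, s i x ∂(hvol 𝓜 h) := Finset.sum_congr rfl fun i _ => hpiece i
    _ = - ∫ x, ∑ i, s i x ∂(hvol 𝓜 h) := by
        rw [Finset.sum_neg_distrib, integral_finsetSum _ fun i _ =>
          integrable_hvol_of_csupp hh (hsc i) (hscs i)]
    _ = 0 := by
        rw [integral_hvol_congr (f' := fun _ => (0 : ℂ)) hsum0, integral_zero, neg_zero]

end div

end Claimed.Agent.R316
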