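import Claimed.Agent.R316.Base.Vol.Basic
import Claimed.Agent.R316.Pack022_2
import Claimed.Agent.R316.Pack011
import Claimed.Agent.R316.CM.FormsST
import Claimed.Agent.R316.CW.MatAlg

/-!
# Row 316, G6-Time: differentiation of `∫ F_t dV_{h_t}`; the cofactor inequality `flow.tex (3.27)`

Statement file by helper55.

* `hasDerivWithinAt_integral_hvol`: fixed measure, `G` jointly continuous with jointly continuous time derivative, uniformly
  compactly supported.  ROUTE: `hasDerivWithinAt_iff_tendsto_slope`, dominated convergence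
  (`tendsto_integral_filter_of_dominated_convergence`); the slopes are bounded near `t` by the mean value inequality on the segment
  `[t,s] ⊆ I` and `|G'(s,x)| ≤ |G'(t,x)| + 1` for `s ∈ I` close to `t`, `x ∈ K` (tube lemma / `IsCompact` + joint continuity;
  NO closedness of `I` needed); dominating function `(C+1) 1_K`.  If `I = {t}` the statement is trivial.
* `hasDerivWithinAt_integral_hvol_family`: `dV_{h_s} = e^{P_s} dV_g` (`integral_hvol_eq_detRatio`), product rule.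
* cofactor: `cofactor_ineq` (CW/MatAlg.lean) in the chosen parametrisation + `tr_eq`, `detRatio_eq'` (CM/Forms.lean).
-/

set_option autoImplicit false
set_option linter.unusedSectionVars false
open scoped ContDiff ComplexOrder Topology
open MeasureTheory

namespace Claimed.Agent.R316

variable {V : Type} [NormedAddCommGroup V] [NormedSpace ℝ V] [FiniteDimensional ℝ V]
  [MeasurableSpace V] [BorelSpace V]
variable {ι : Type} [Fintype ι] [DecidableEq ι]
variable {𝓜 : CMfd V ι} {h g : HFam V ι}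

/-! ### parameter dependence, fixed measure -/

section fixed

variable {I : Set ℝ} {G G' : ℝ → V → ℝ}

/-- tube lemma: a jointly continuous function is bounded on `(I ∩ nbhd of t) × K`, `K` compact. -/
theorem exists_bound_near_of_continuousOn {X : Type} [TopologicalSpace X] {K : Set X}
    (hK : IsCompact K) {H : ℝ × X → ℝ} (hH : ContinuousOn H (I ×ˢ K)) {t : ℝ} (ht : t ∈ I) :
    ∃ C : ℝ, ∀ᶠ s in 𝓝 t, s ∈ I → ∀ x ∈ K, |H (s, x)| ≤ C := by
  have hc : ContinuousOn (fun x => H (t, x)) K :=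
    hH.comp (continuousOn_const.prodMk continuousOn_id) (fun x hx => ⟨ht, hx⟩)
  obtain ⟨C, hC⟩ := hK.exists_bound_of_continuousOn hc
  refine ⟨C + 1, ?_⟩
  have h1 : ∀ᶠ s in 𝓝 t, ∀ x ∈ K, s ∈ I → x ∈ K → |H (s, x)| ≤ C + 1 := by
    refine hK.eventually_forall_of_forall_eventually fun x hx => ?_
    have h2 : ∀ᶠ z in 𝓝[I ×ˢ K] (t, x), |H z| < C + 1 := by
      have h3 : Filter.Tendsto (fun z => |H z|) (𝓝[I ×ˢ K] (t, x)) (𝓝 |H (t, x)|) :=
        (hH (t, x) ⟨ht, hx⟩).tendsto.abs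
      exact h3.eventually (Iio_mem_nhds (lt_of_le_of_lt (hC x hx) (by linarith)))
    rw [eventually_nhdsWithin_iff] at h2
    filter_upwards [h2] with z hz hz1 hz2
    exact (hz ⟨hz1, hz2⟩).le
  filter_upwards [h1] with s hs hsI x hx
  exact hs x hx hsI hx

theorem continuousOn_slice_space_of_joint (hG : ContinuousOn (fun p : ℝ × V => G p.1 p.2) (I ×ˢ 𝓜.carrier))
    {t : ℝ} (ht : t ∈ I) : ContinuousOn (G t) 𝓜.carrier :=
  hG.comp (continuousOn_const.prodMk continuousOn_id) (fun x hx => ⟨ht, hx⟩)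

theorem continuousOn_slice_time_of_joint (hG : ContinuousOn (fun p : ℝ × V => G p.1 p.2) (I ×ˢ 𝓜.carrier))
    {x : V} (hx : x ∈ 𝓜.carrier) : ContinuousOn (fun s => G s x) I :=
  hG.comp (continuousOn_id.prodMk continuousOn_const) (fun s hs => ⟨hs, hx⟩)

/-- continuity of `t ↦ ∫ G_t`. -/
theorem continuousOn_integral_hvol (hh : IsMetric 𝓜 h)
    (hG : ContinuousOn (fun p : ℝ × V => G p.1 p.2) (I ×ˢ 𝓜.carrier)) (hc : 𝓜.CSuppST I G) :
    ContinuousOn (fun t => ∫ x, G t x ∂(hvol 𝓜 h)) I := by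
  intro t ht
  obtain ⟨K, hK, hsub, h0⟩ := hc
  obtain ⟨C, hC⟩ := exists_bound_near_of_continuousOn hK
    (hG.mono (Set.prod_mono subset_rfl hsub)) ht
  have hKm : MeasurableSet K := hK.isClosed.measurableSet
  refine tendsto_integral_filter_of_dominated_convergence (K.indicator fun _ => C) ?_ ?_ ?_ ?_
  · filter_upwards [self_mem_nhdsWithin] with s hs
    exact aestronglyMeasurable_hvol_of_continuousOn (continuousOn_slice_space_of_joint hG hs)
  · filter_upwards [self_mem_nhdsWithin, mem_nhdsWithin_of_mem_nhds hC] with s hs hsC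
    refine ae_hvol_of_forall_mem fun x hx => ?_
    by_cases hxK : x ∈ K
    · rw [Set.indicator_of_mem hxK]
      exact hsC hs x hxK
    · rw [Set.indicator_of_notMem hxK, h0 s hs x hx hxK, norm_zero]
  · rw [integrable_indicator_iff hKm]
    exact integrableOn_const (hvol_lt_top_of_isCompact hh hK hsub).ne
  · refine ae_hvol_of_forall_mem fun x hx => ?_
    exact (continuousOn_slice_time_of_joint hG hx) t ht

/-- **differentiation under the integral sign**. -/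
theorem hasDerivWithinAt_integral_hvol (hh : IsMetric 𝓜 h) (hI : I.OrdConnected)
    (hG : ContinuousOn (fun p : ℝ × V => G p.1 p.2) (I ×ˢ 𝓜.carrier))
    (hG' : ContinuousOn (fun p : ℝ × V => G' p.1 p.2) (I ×ˢ 𝓜.carrier))
    (hd : ∀ t ∈ I, ∀ x ∈ 𝓜.carrier, HasDerivWithinAt (fun s => G s x) (G' t x) I t)
    (hc : 𝓜.CSuppST I G) {t : ℝ} (ht : t ∈ I) :
    HasDerivWithinAt (fun s => ∫ x, G s x ∂(hvol 𝓜 h)) (∫ x, G' t x ∂(hvol 𝓜 h)) I t := by
  have hcs : ∀ s ∈ I, Integrable (G s) (hvol 𝓜 h) := fun s hs =>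
    integrable_hvol_of_csupp hh (continuousOn_slice_space_of_joint hG hs) (hc.csupp hs)
  obtain ⟨K, hK, hsub, h0⟩ := hc
  obtain ⟨C, hC⟩ := exists_bound_near_of_continuousOn hK
    (hG'.mono (Set.prod_mono subset_rfl hsub)) ht
  obtain ⟨δ, hδ, hball⟩ := Metric.eventually_nhds_iff_ball.1 hC
  have hKm : MeasurableSet K := hK.isClosed.measurableSet
  rw [hasDerivWithinAt_iff_tendsto_slope]
  have hmemI : I ∈ 𝓝[I \ {t}] t := nhdsWithin_mono t Set.sdiff_subset self_mem_nhdsWithin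
  have hmemB : Metric.ball t δ ∈ 𝓝[I \ {t}] t :=
    mem_nhdsWithin_of_mem_nhds (Metric.ball_mem_nhds t hδ)
  have hslope : ∀ s ∈ I, slope (fun s => ∫ x, G s x ∂(hvol 𝓜 h)) t s
      = ∫ x, slope (fun s => G s x) t s ∂(hvol 𝓜 h) := by
    intro s hs
    simp only [slope_def_field]
    rw [integral_div, integral_sub (hcs s hs) (hcs t ht)]
  refine Filter.Tendsto.congr' (f₁ := fun s => ∫ x, slope (fun s => G s x) t s ∂(hvol 𝓜 h)) ?_ ?_
  · filter_upwards [hmemI] with s hs using (hslope s hs).symm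
  refine tendsto_integral_filter_of_dominated_convergence (K.indicator fun _ => C) ?_ ?_ ?_ ?_
  · filter_upwards [hmemI] with s hs
    simp only [slope_def_field]
    exact aestronglyMeasurable_hvol_of_continuousOn
      (((continuousOn_slice_space_of_joint hG hs).sub
        (continuousOn_slice_space_of_joint hG ht)).div_const _)
  · filter_upwards [hmemI, hmemB, self_mem_nhdsWithin] with s hs hsB hst
    refine ae_hvol_of_forall_mem fun x hx => ?_
    simp only [slope_def_field]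
    by_cases hxK : x ∈ K
    · rw [Set.indicator_of_mem hxK]
      have hconv : Convex ℝ (I ∩ Metric.ball t δ) := hI.convex.inter (convex_ball t δ)
      have hmv := hconv.norm_image_sub_le_of_norm_hasDerivWithin_le (f := fun s => G s x)
        (f' := fun σ => G' σ x) (C := C)
        (fun σ hσ => (hd σ hσ.1 x hx).mono Set.inter_subset_left)
        (fun σ hσ => hball σ hσ.2 hσ.1 x hxK) ⟨ht, Metric.mem_ball_self hδ⟩ ⟨hs, hsB⟩
      have hne : s - t ≠ 0 := sub_ne_zero.2 hst.2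
      rw [norm_div, div_le_iff₀ (norm_pos_iff.2 hne)]
      exact hmv
    · rw [Set.indicator_of_notMem hxK, h0 s hs x hx hxK, h0 t ht x hx hxK, sub_zero, zero_div,
        norm_zero]
  · rw [integrable_indicator_iff hKm]
    exact integrableOn_const (hvol_lt_top_of_isCompact hh hK hsub).ne
  · refine ae_hvol_of_forall_mem fun x hx => ?_
    exact hasDerivWithinAt_iff_tendsto_slope.1 (hd t ht x hx)

theorem hasDerivWithinAt_integral_hvol_of_smoothST (hh : IsMetric 𝓜 h) (hI : I.OrdConnected)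
    (hG : 𝓜.SmoothST I G) (hG' : 𝓜.SmoothST I G')
    (hd : ∀ t ∈ I, ∀ x ∈ 𝓜.carrier, HasDerivWithinAt (fun s => G s x) (G' t x) I t)
    (hc : 𝓜.CSuppST I G) {t : ℝ} (ht : t ∈ I) :
    HasDerivWithinAt (fun s => ∫ x, G s x ∂(hvol 𝓜 h)) (∫ x, G' t x ∂(hvol 𝓜 h)) I t := by
  exact hasDerivWithinAt_integral_hvol hh hI hG.continuousOn hG'.continuousOn hd hc ht

theorem isTimeDom_of_ordConnected (hI : I.OrdConnected) (hne : I.Nontrivial) : IsTimeDom I := by
  refine ⟨hI.convex, ?_⟩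
  obtain ⟨a, ha, b, hb, hab⟩ := hne
  wlog hlt : a < b generalizing a b
  · exact this b hb a ha hab.symm (lt_of_le_of_ne (not_lt.1 hlt) hab.symm)
  have h1 : Set.Ioo a b ⊆ interior I :=
    interior_maximal (Set.Ioo_subset_Icc_self.trans (hI.out ha hb)) isOpen_Ioo
  exact (Set.nonempty_Ioo.2 hlt).mono h1

/-- the time derivative of a smooth space-time function exists and is smooth. -/
theorem CMfd.SmoothST.exists_deriv (hI : I.OrdConnected) (hne : I.Nontrivial)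
    (hG : 𝓜.SmoothST I G) :
    ∃ G₁ : ℝ → V → ℝ, 𝓜.SmoothST I G₁ ∧
      ∀ t ∈ I, ∀ x ∈ 𝓜.carrier, HasDerivWithinAt (fun s => G s x) (G₁ t x) I t := by
  exact ⟨_, hG.derivWithin (isTimeDom_of_ordConnected hI hne),
    fun t ht x hx => hG.hasDerivWithinAt ht hx⟩

/-- a time derivative of a smooth space-time function is smooth. -/
theorem CMfd.SmoothST.smoothST_of_hasDerivWithinAt (hI : I.OrdConnected) (hne : I.Nontrivial)
    (hG : 𝓜.SmoothST I G)
    (hd : ∀ t ∈ I, ∀ x ∈ 𝓜.carrier, HasDerivWithinAt (fun s => G s x) (G' t x) I t) :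
    𝓜.SmoothST I G' := by
  exact hG.of_hasDerivWithinAt (isTimeDom_of_ordConnected hI hne) hd

end fixed

/-! ### evolving metrics -/

section evolving

variable {I : Set ℝ} {hs hs' : ℝ → HFam V ι} {P P' F F' : ℝ → V → ℝ}

/-- **`d/dt ∫ F_t dV_{h_t} = ∫ (∂_t F + F ∂_t log det h_t) dV_{h_t}`**, in terms of
`P = log (det h_t / det g)`. -/
theorem hasDerivWithinAt_integral_hvol_family (hg : IsMetric 𝓜 g) (hI : I.OrdConnected)
    (hm : ∀ t ∈ I, IsMetric 𝓜 (hs t))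
    (hP : ∀ t ∈ I, ∀ x ∈ 𝓜.carrier, detRatio 𝓜 (hs t) g x = Real.exp (P t x))
    (hPc : ContinuousOn (fun p : ℝ × V => P p.1 p.2) (I ×ˢ 𝓜.carrier))
    (hPc' : ContinuousOn (fun p : ℝ × V => P' p.1 p.2) (I ×ˢ 𝓜.carrier))
    (hFc : ContinuousOn (fun p : ℝ × V => F p.1 p.2) (I ×ˢ 𝓜.carrier))
    (hFc' : ContinuousOn (fun p : ℝ × V => F' p.1 p.2) (I ×ˢ 𝓜.carrier))
    (hdP : ∀ t ∈ I, ∀ x ∈ 𝓜.carrier, HasDerivWithinAt (fun s => P s x) (P' t x) I t)
    (hdF : ∀ t ∈ I, ∀ x ∈ 𝓜.carrier, HasDerivWithinAt (fun s => F s x) (F' t x) I t)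
    (hc : 𝓜.CSuppST I F) {t : ℝ} (ht : t ∈ I) :
    HasDerivWithinAt (fun s => ∫ x, F s x ∂(hvol 𝓜 (hs s)))
      (∫ x, (F' t x + F t x * P' t x) ∂(hvol 𝓜 (hs t))) I t := by
  have hexp : ContinuousOn (fun p : ℝ × V => Real.exp (P p.1 p.2)) (I ×ˢ 𝓜.carrier) :=
    Real.continuous_exp.comp_continuousOn hPc
  have h1 := hasDerivWithinAt_integral_hvol (h := g) (G := fun s x => Real.exp (P s x) * F s x)
    (G' := fun s x => Real.exp (P s x) * (F' s x + F s x * P' s x)) hg hI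
    (hexp.mul hFc) (hexp.mul (hFc'.add (hFc.mul hPc')))
    (fun s hs' x hx => by
      have := (hdP s hs' x hx).exp.mul (hdF s hs' x hx)
      have e : Real.exp (P s x) * (F' s x + F s x * P' s x)
          = Real.exp (P s x) * P' s x * F s x + Real.exp (P s x) * F' s x := by ring
      rw [e]
      exact this) (hc.mul_left _) ht
  have hconv : ∀ s ∈ I, ∀ Q : V → ℝ, ∫ x, Q x ∂(hvol 𝓜 (hs s))
      = ∫ x, Real.exp (P s x) * Q x ∂(hvol 𝓜 g) := by
    intro s hs' Q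
    rw [integral_hvol_eq_detRatio (hm s hs') hg]
    refine integral_hvol_congr fun x hx => ?_
    rw [hP s hs' x hx, smul_eq_mul]
  rw [hconv t ht]
  exact h1.congr (fun s hs' => hconv s hs' _) (hconv t ht _)

/-- pointwise: `∂_t log (det h_t / det g) = tr_{h_t} ∂_t h_t`. -/
theorem hasDerivWithinAt_log_detRatio (hg : IsMetric 𝓜 g) (hm : ∀ t ∈ I, IsMetric 𝓜 (hs t))
    (hf' : ∀ t ∈ I, IsHForm 𝓜 (hs' t))
    (hd : ∀ t ∈ I, ∀ (Φ : CE ι → V) (U : Set (CE ι)), 𝓜.IsHol Φ U → ∀ z ∈ U, ∀ j k,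
      HasDerivWithinAt (fun s => hs s Φ z j k) (hs' t Φ z j k) I t)
    {t : ℝ} (ht : t ∈ I) {x : V} (hx : x ∈ 𝓜.carrier) :
    HasDerivWithinAt (fun s => Real.log (detRatio 𝓜 (hs s) g x)) (tr 𝓜 (hs t) (hs' t) x) I t := by
  exact hasDerivWithinAt_log_detRatio_of_isTimeDeriv hm hg
    (fun Φ U hΦ z hz t ht j k => hd t ht Φ U hΦ z hz j k) ht hx

/-- the same in terms of the time derivative `hs'` of the metric: `∂_t log det h = tr_h ∂_t h`. -/
theorem hasDerivWithinAt_integral_hvol_of_deriv (hI : I.OrdConnected)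
    (hm : ∀ t ∈ I, IsMetric 𝓜 (hs t)) (hsm : SmoothFam 𝓜 I hs) (hsm' : SmoothFam 𝓜 I hs')
    (hf' : ∀ t ∈ I, IsHForm 𝓜 (hs' t))
    (hd : ∀ t ∈ I, ∀ (Φ : CE ι → V) (U : Set (CE ι)), 𝓜.IsHol Φ U → ∀ z ∈ U, ∀ j k,
      HasDerivWithinAt (fun s => hs s Φ z j k) (hs' t Φ z j k) I t)
    (hFc : ContinuousOn (fun p : ℝ × V => F p.1 p.2) (I ×ˢ 𝓜.carrier))
    (hFc' : ContinuousOn (fun p : ℝ × V => F' p.1 p.2) (I ×ˢ 𝓜.carrier))
    (hdF : ∀ t ∈ I, ∀ x ∈ 𝓜.carrier, HasDerivWithinAt (fun s => F s x) (F' t x) I t)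
    (hc : 𝓜.CSuppST I F) {t : ℝ} (ht : t ∈ I) :
    HasDerivWithinAt (fun s => ∫ x, F s x ∂(hvol 𝓜 (hs s)))
      (∫ x, (F' t x + F t x * tr 𝓜 (hs t) (hs' t) x) ∂(hvol 𝓜 (hs t))) I t := by
  have hg := hm t ht
  exact hasDerivWithinAt_integral_hvol_family (g := hs t)
    (P := fun s x => Real.log (detRatio 𝓜 (hs s) (hs t) x))
    (P' := fun s x => tr 𝓜 (hs s) (hs' s) x) hg hI hm
    (fun s hs' x hx => (Real.exp_log (detRatio_pos (hm s hs') hg hx)).symm)
    (smoothST_log_detRatio ⟨hm, hsm⟩ (isMetricST_const hg I)).continuousOn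
    (smoothST_tr ⟨hm, hsm⟩ ⟨hf', hsm'⟩).continuousOn hFc hFc'
    (fun s hs' x hx => hasDerivWithinAt_log_detRatio hg hm hf' hd hs' hx) hdF hc ht

end evolving

/-! ### the cofactor inequality -/

section cofactor

variable {B : HFam V ι} {b : V → ℝ} {S : Set V}

/-- **`flow.tex (3.27)`**, pointwise: `0 < h ≤ g`, `-b g ≤ B ≤ b g` on `S` imply
`|tr_h B| (det h / det g) ≤ n b` on `S`. -/
theorem abs_tr_mul_detRatio_le (hh : IsMetric 𝓜 h) (hg : IsMetric 𝓜 g) (hle : leF 𝓜 h g)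
    (hB : IsHForm 𝓜 B) (h₁ : leFOn 𝓜 S B (smulF b g)) (h₂ : leFOn 𝓜 S (smulF (fun y => - b y) g) B)
    {x : V} (hx : x ∈ 𝓜.carrier) (hxS : x ∈ S) :
    |tr 𝓜 h B x| * detRatio 𝓜 h g x ≤ Fintype.card ι * b x := by
  have hp := 𝓜.isHol_pΦ hx
  have hco := 𝓜.co_mem hx
  have hxS' : 𝓜.pΦ x (𝓜.co x) ∈ S := by rw [𝓜.pΦ_co hx]; exact hxS
  have a1 := h₁ _ _ hp _ hco hxS'
  have a2 := h₂ _ _ hp _ hco hxS'
  simp only [R316.smulF, 𝓜.pΦ_co hx, Complex.ofReal_neg, neg_smul, sub_neg_eq_add] at a1 a2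
  have h3 := cofactor_ineq (hh.posDef hp _ hco) (hle _ _ hp _ hco) a1 a2
  have hpos := hg.det_re_pos_chosen hx
  rw [detRatio_chosen hh.toIsHForm hg.toIsHForm hx, ← mul_div_assoc, div_le_iff₀ hpos]
  exact h3

/-- the case `B = dd ψ`. -/
theorem abs_lap_mul_detRatio_le (hh : IsMetric 𝓜 h) (hg : IsMetric 𝓜 g) (hle : leF 𝓜 h g)
    {ψ : V → ℝ} (hψ : 𝓜.Smooth ψ) (h₁ : leFOn 𝓜 S (ddc ψ) (smulF b g))
    (h₂ : leFOn 𝓜 S (smulF (fun y => - b y) g) (ddc ψ))
    {x : V} (hx : x ∈ 𝓜.carrier) (hxS : x ∈ S) :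
    |lap 𝓜 h ψ x| * detRatio 𝓜 h g x ≤ Fintype.card ι * b x := by
  exact abs_tr_mul_detRatio_le hh hg hle (isHForm_ddc hψ) h₁ h₂ hx hxS

/-- integrated form: `∫ w |tr_h B| dV_h ≤ n ∫ w b dV_g` for `w ≥ 0` (both sides integrable). -/
theorem integral_mul_abs_tr_le (hh : IsMetric 𝓜 h) (hg : IsMetric 𝓜 g) (hle : leF 𝓜 h g)
    (hB : IsHForm 𝓜 B) (h₁ : leF 𝓜 B (smulF b g)) (h₂ : leF 𝓜 (smulF (fun y => - b y) g) B)
    {w : V → ℝ} (hw : ∀ x ∈ 𝓜.carrier, 0 ≤ w x)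
    (hi : Integrable (fun x => w x * b x) (hvol 𝓜 g))
    (hwm : AEStronglyMeasurable w (hvol 𝓜 g)) :
    Integrable (fun x => w x * |tr 𝓜 h B x|) (hvol 𝓜 h) ∧
    ∫ x, w x * |tr 𝓜 h B x| ∂(hvol 𝓜 h) ≤ Fintype.card ι * ∫ x, w x * b x ∂(hvol 𝓜 g) := by
  have hpt : ∀ x ∈ 𝓜.carrier, detRatio 𝓜 h g x • (w x * |tr 𝓜 h B x|)
      ≤ Fintype.card ι * (w x * b x) := by
    intro x hx
    have h3 := abs_tr_mul_detRatio_le (S := Set.univ) hh hg hle hB
      (fun Φ U hΦ z hz _ => h₁ Φ U hΦ z hz) (fun Φ U hΦ z hz _ => h₂ Φ U hΦ z hz) hx trivial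
    have := mul_le_mul_of_nonneg_left h3 (hw x hx)
    rw [smul_eq_mul]
    linarith
  have hnn : ∀ x ∈ 𝓜.carrier, 0 ≤ detRatio 𝓜 h g x • (w x * |tr 𝓜 h B x|) := by
    intro x hx
    rw [smul_eq_mul]
    exact mul_nonneg (detRatio_pos hh hg hx).le (mul_nonneg (hw x hx) (abs_nonneg _))
  have hint : Integrable (fun x => detRatio 𝓜 h g x • (w x * |tr 𝓜 h B x|)) (hvol 𝓜 g) := by
    refine Integrable.mono' (hi.const_mul (Fintype.card ι : ℝ)) ?_ ?_
    · exact (smooth_detRatio hh.toIsHForm hg).aestronglyMeasurable.smul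
        (hwm.mul (aestronglyMeasurable_hvol_of_continuousOn (smooth_tr hh hB).continuousOn.abs))
    · refine ae_hvol_of_forall_mem fun x hx => ?_
      rw [Real.norm_of_nonneg (hnn x hx)]
      exact hpt x hx
  refine ⟨(integrable_hvol_iff_detRatio hh hg _).2 hint, ?_⟩
  rw [integral_hvol_eq_detRatio hh hg, ← integral_const_mul]
  exact integral_hvol_mono hint (hi.const_mul _) hpt

/-- `dV_h ≤ dV_g`, integral form. -/
theorem integral_hvol_le_of_leF (hh : IsMetric 𝓜 h) (hg : IsMetric 𝓜 g) (hle : leF 𝓜 h g)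
    {w : V → ℝ} (hw : ∀ x ∈ 𝓜.carrier, 0 ≤ w x) (hi : Integrable w (hvol 𝓜 g)) :
    Integrable w (hvol 𝓜 h) ∧ ∫ x, w x ∂(hvol 𝓜 h) ≤ ∫ x, w x ∂(hvol 𝓜 g) := by
  exact ⟨hi.mono_measure (hvol_mono hh hg hle),
    integral_mono_measure (hvol_mono hh hg hle) (ae_hvol_of_forall_mem hw) hi⟩

end cofactor

end Claimed.Agent.R316
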