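import Claimed.Agent.R316.Pack022_2
import Claimed.Agent.R316.Pack011

/-!
# Row 316, G6-Basic: integration API of the volume measure `hvol 𝓜 h`

Statement file by helper55.  Everything follows from `isVol_hvol` (Vol/Exist.lean).

KEY LEMMA `hvol_restrict_image`: `(hvol 𝓜 h).restrict (Φ '' U) = map Φ (det H dλ|_U)`
(both sides agree on measurable sets by `IsVol`).  Since `Φ|_U` is a measurable embedding
(`CMfd.measurableEmbedding_param`) the integral formulas hold WITHOUT measurability hypotheses on the integrand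
(`MeasurableEmbedding.lintegral_map`, `.integral_map`, `.integrable_map_iff`,
`lintegral_withDensity_eq_lintegral_mul_non_measurable`, `integral_withDensity_eq_integral_toReal_smul`…).
Global statements: countable atlas (`CMfd.exists_countable_atlas`).
-/

set_option autoImplicit false
set_option linter.unusedSectionVars false
open scoped ContDiff ComplexOrder ENNReal Topology
open MeasureTheory

namespace Claimed.Agent.R316

variable {V : Type} [NormedAddCommGroup V] [NormedSpace ℝ V] [MeasurableSpace V] [BorelSpace V]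
variable {ι : Type} [Fintype ι] [DecidableEq ι]
variable {𝓜 : CMfd V ι} {h g : HFam V ι} {Φ : CE ι → V} {U : Set (CE ι)}

/-! ### the carrier -/

/-- no hypothesis on `h`. -/
theorem hvol_compl_carrier (𝓜 : CMfd V ι) (h : HFam V ι) : hvol 𝓜 h 𝓜.carrierᶜ = 0 := by
  unfold hvol
  split_ifs with H
  · exact H.choose_spec.1
  · rfl

theorem ae_mem_carrier (𝓜 : CMfd V ι) (h : HFam V ι) : ∀ᵐ x ∂(hvol 𝓜 h), x ∈ 𝓜.carrier := by
  exact mem_ae_iff.2 (hvol_compl_carrier 𝓜 h)

theorem hvol_restrict_carrier (𝓜 : CMfd V ι) (h : HFam V ι) :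
    (hvol 𝓜 h).restrict 𝓜.carrier = hvol 𝓜 h := by
  exact Measure.restrict_eq_self_of_ae_mem (ae_mem_carrier 𝓜 h)

theorem hvol_inter_carrier (𝓜 : CMfd V ι) (h : HFam V ι) (S : Set V) :
    hvol 𝓜 h (S ∩ 𝓜.carrier) = hvol 𝓜 h S := by
  exact measure_inter_conull (hvol_compl_carrier 𝓜 h)

/-- a.e. statements only concern the carrier. -/
theorem ae_hvol_of_forall_mem {P : V → Prop} (hP : ∀ x ∈ 𝓜.carrier, P x) :
    ∀ᵐ x ∂(hvol 𝓜 h), P x := by
  filter_upwards [ae_mem_carrier 𝓜 h] with x hx using hP x hx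

/-- integrals only depend on the values on the carrier. -/
theorem integral_hvol_congr {E : Type} [NormedAddCommGroup E] [NormedSpace ℝ E] {f f' : V → E}
    (hf : ∀ x ∈ 𝓜.carrier, f x = f' x) : ∫ x, f x ∂(hvol 𝓜 h) = ∫ x, f' x ∂(hvol 𝓜 h) := by
  exact integral_congr_ae (ae_hvol_of_forall_mem hf)

theorem integrable_hvol_congr {E : Type} [NormedAddCommGroup E] {f f' : V → E}
    (hf : ∀ x ∈ 𝓜.carrier, f x = f' x) :
    Integrable f (hvol 𝓜 h) ↔ Integrable f' (hvol 𝓜 h) := by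
  exact integrable_congr (ae_hvol_of_forall_mem hf)

theorem integral_hvol_mono {f f' : V → ℝ} (hf : Integrable f (hvol 𝓜 h))
    (hf' : Integrable f' (hvol 𝓜 h)) (hle : ∀ x ∈ 𝓜.carrier, f x ≤ f' x) :
    ∫ x, f x ∂(hvol 𝓜 h) ≤ ∫ x, f' x ∂(hvol 𝓜 h) := by
  exact integral_mono_ae hf hf' (ae_hvol_of_forall_mem hle)

theorem integral_hvol_nonneg {f : V → ℝ} (hf : ∀ x ∈ 𝓜.carrier, 0 ≤ f x) :
    0 ≤ ∫ x, f x ∂(hvol 𝓜 h) := by
  exact integral_nonneg_of_ae (ae_hvol_of_forall_mem hf)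

variable [SecondCountableTopology V]

/-- functions continuous on the carrier are a.e. strongly measurable (no hypothesis on `h`). -/
theorem aestronglyMeasurable_hvol_of_continuousOn {X : Type} [TopologicalSpace X]
    [TopologicalSpace.PseudoMetrizableSpace X] {f : V → X} (hf : ContinuousOn f 𝓜.carrier) :
    AEStronglyMeasurable f (hvol 𝓜 h) := by
  rw [← hvol_restrict_carrier 𝓜 h]
  exact hf.aestronglyMeasurable 𝓜.measurableSet_carrier

theorem CMfd.Smooth.aestronglyMeasurable {u : V → ℝ} (hu : 𝓜.Smooth u) :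
    AEStronglyMeasurable u (hvol 𝓜 h) := by
  exact aestronglyMeasurable_hvol_of_continuousOn hu.continuousOn

/-! ### integration in one parametrisation -/

theorem hvol_image (hh : IsHForm 𝓜 h) (hΦ : 𝓜.IsHol Φ U) {A : Set (CE ι)} (hA : A ⊆ U)
    (hm : MeasurableSet A) :
    hvol 𝓜 h (Φ '' A) = ∫⁻ z in A, ENNReal.ofReal (h Φ z).det.re := by
  exact (isVol_hvol hh).2 Φ U hΦ A hA hm

/-- the density measure `det H dλ` on a measurable subset `A` of the domain. -/
noncomputable def densM (h : HFam V ι) (Φ : CE ι → V) (A : Set (CE ι)) : Measure (CE ι) :=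
  (volume.restrict A).withDensity fun z => ENNReal.ofReal (h Φ z).det.re

theorem densM_restrict (h : HFam V ι) (Φ : CE ι → V) {A : Set (CE ι)} (hm : MeasurableSet A) :
    (densM h Φ A).restrict A = densM h Φ A := by
  unfold densM
  rw [restrict_withDensity hm, Measure.restrict_restrict hm, Set.inter_self]

theorem aemeasurable_dens (hh : IsHForm 𝓜 h) (hΦ : 𝓜.IsHol Φ U) {A : Set (CE ι)} (hA : A ⊆ U)
    (hm : MeasurableSet A) :
    AEMeasurable (fun z => ENNReal.ofReal (h Φ z).det.re) (volume.restrict A) := by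
  exact ENNReal.measurable_ofReal.comp_aemeasurable
    (((hh.continuousOn_det_re hΦ).mono hA).aemeasurable hm)

theorem CMfd.measurableEmbedding_param_set (hΦ : 𝓜.IsHol Φ U) {A : Set (CE ι)} (hA : A ⊆ U)
    (hm : MeasurableSet A) : MeasurableEmbedding (fun z : A => Φ z) := by
  exact ((𝓜.isParam hΦ).continuousOn.mono hA).measurableEmbedding hm
    ((𝓜.isParam hΦ).injOn.mono hA)

/-- **key lemma**, embedding form, for measurable subsets of the domain. -/
theorem hvol_restrict_image_emb (hh : IsHForm 𝓜 h) (hΦ : 𝓜.IsHol Φ U) {A : Set (CE ι)}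
    (hA : A ⊆ U) (hm : MeasurableSet A) :
    (hvol 𝓜 h).restrict (Φ '' A) =
      ((densM h Φ A).comap (Subtype.val : A → CE ι)).map (fun z : A => Φ z) := by
  have he := CMfd.measurableEmbedding_param_set hΦ hA hm
  ext S hS
  have hB : MeasurableSet (A ∩ Φ ⁻¹' S) := by
    have : A ∩ Φ ⁻¹' S = A ∩ (U ∩ Φ ⁻¹' S) := by
      ext z
      simp only [Set.mem_inter_iff, Set.mem_preimage]
      constructor
      · rintro ⟨h1, h2⟩; exact ⟨h1, hA h1, h2⟩
      · rintro ⟨h1, _, h2⟩; exact ⟨h1, h2⟩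
    rw [this]
    exact hm.inter (CMfd.measurableSet_inter_preimage hΦ hS)
  rw [Measure.restrict_apply hS, Measure.map_apply he.measurable hS,
    (MeasurableEmbedding.subtype_coe hm).comap_apply]
  have h1 : S ∩ Φ '' A = Φ '' (A ∩ Φ ⁻¹' S) := by
    ext x
    constructor
    · rintro ⟨hx, z, hz, rfl⟩; exact ⟨z, ⟨hz, hx⟩, rfl⟩
    · rintro ⟨z, ⟨hz, hx⟩, rfl⟩; exact ⟨hx, z, hz, rfl⟩
  have h2 : (Subtype.val : A → CE ι) '' ((fun z : A => Φ z) ⁻¹' S) = A ∩ Φ ⁻¹' S := by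
    ext z
    constructor
    · rintro ⟨⟨w, hw⟩, hwS, rfl⟩; exact ⟨hw, hwS⟩
    · rintro ⟨hz, hzS⟩; exact ⟨⟨z, hz⟩, hzS, rfl⟩
  rw [h1, h2, hvol_image hh hΦ (Set.inter_subset_left.trans hA) hB]
  unfold densM
  rw [withDensity_apply _ hB, Measure.restrict_restrict hB]
  congr 2
  ext z
  simp only [Set.mem_inter_iff]
  tauto

/-- **key lemma**. -/
theorem hvol_restrict_image (hh : IsHForm 𝓜 h) (hΦ : 𝓜.IsHol Φ U) :
    (hvol 𝓜 h).restrict (Φ '' U) =
      ((volume.restrict U).withDensity fun z => ENNReal.ofReal (h Φ z).det.re).map Φ := by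
  have hU := (CMfd.isOpen_dom hΦ).measurableSet
  have hae : AEMeasurable Φ
      ((volume.restrict U).withDensity fun z => ENNReal.ofReal (h Φ z).det.re) :=
    (CMfd.aemeasurable_param hΦ).mono_ac (withDensity_absolutelyContinuous _ _)
  ext S hS
  have hB := CMfd.measurableSet_inter_preimage hΦ hS
  rw [Measure.restrict_apply hS, Measure.map_apply_of_aemeasurable hae hS, withDensity_apply',
    Measure.restrict_restrict' hU]
  have h1 : S ∩ Φ '' U = Φ '' (U ∩ Φ ⁻¹' S) := by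
    ext x
    constructor
    · rintro ⟨hx, z, hz, rfl⟩; exact ⟨z, ⟨hz, hx⟩, rfl⟩
    · rintro ⟨z, ⟨hz, hx⟩, rfl⟩; exact ⟨hx, z, hz, rfl⟩
  rw [h1, hvol_image hh hΦ Set.inter_subset_left hB, Set.inter_comm]

theorem lintegral_hvol_image (hh : IsHForm 𝓜 h) (hΦ : 𝓜.IsHol Φ U) {A : Set (CE ι)} (hA : A ⊆ U)
    (hm : MeasurableSet A) (f : V → ℝ≥0∞) :
    ∫⁻ x in Φ '' A, f x ∂(hvol 𝓜 h) = ∫⁻ z in A, f (Φ z) * ENNReal.ofReal (h Φ z).det.re := by
  rw [hvol_restrict_image_emb hh hΦ hA hm,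
    (CMfd.measurableEmbedding_param_set hΦ hA hm).lintegral_map,
    lintegral_subtype_comap hm (fun z => f (Φ z)), densM_restrict h Φ hm]
  unfold densM
  rw [lintegral_withDensity_eq_lintegral_mul_non_measurable₀ _ (aemeasurable_dens hh hΦ hA hm)
    (Filter.Eventually.of_forall fun z => ENNReal.ofReal_lt_top)]
  refine lintegral_congr fun z => ?_
  simp only [Pi.mul_apply, mul_comm]

theorem integral_hvol_image {E : Type} [NormedAddCommGroup E] [NormedSpace ℝ E]
    (hh : IsMetric 𝓜 h) (hΦ : 𝓜.IsHol Φ U) {A : Set (CE ι)} (hA : A ⊆ U) (hm : MeasurableSet A)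
    (f : V → E) :
    ∫ x in Φ '' A, f x ∂(hvol 𝓜 h) = ∫ z in A, (h Φ z).det.re • f (Φ z) := by
  rw [hvol_restrict_image_emb hh.toIsHForm hΦ hA hm,
    (CMfd.measurableEmbedding_param_set hΦ hA hm).integral_map,
    integral_subtype_comap hm (fun z => f (Φ z)), densM_restrict h Φ hm]
  unfold densM
  rw [integral_withDensity_eq_integral_toReal_smul₀ (aemeasurable_dens hh.toIsHForm hΦ hA hm)
    (Filter.Eventually.of_forall fun z => ENNReal.ofReal_lt_top)]
  refine setIntegral_congr_fun hm fun z hz => ?_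
  simp only [ENNReal.toReal_ofReal (hh.det_re_pos hΦ (hA hz)).le]

theorem integrableOn_hvol_image_iff {E : Type} [NormedAddCommGroup E] [NormedSpace ℝ E]
    (hh : IsMetric 𝓜 h) (hΦ : 𝓜.IsHol Φ U) {A : Set (CE ι)} (hA : A ⊆ U) (hm : MeasurableSet A)
    (f : V → E) :
    IntegrableOn f (Φ '' A) (hvol 𝓜 h) ↔ IntegrableOn (fun z => (h Φ z).det.re • f (Φ z)) A := by
  unfold IntegrableOn
  rw [hvol_restrict_image_emb hh.toIsHForm hΦ hA hm,
    (CMfd.measurableEmbedding_param_set hΦ hA hm).integrable_map_iff]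
  have h1 : Integrable (f ∘ fun z : A => Φ z) ((densM h Φ A).comap (Subtype.val : A → CE ι))
      ↔ IntegrableOn (fun z => f (Φ z)) A (densM h Φ A) :=
    (integrableOn_iff_comap_subtypeVal (f := fun z => f (Φ z)) (μ := densM h Φ A) hm).symm
  rw [h1]
  unfold IntegrableOn
  rw [densM_restrict h Φ hm]
  unfold densM
  rw [integrable_withDensity_iff_integrable_smul₀' (aemeasurable_dens hh.toIsHForm hΦ hA hm)
    (Filter.Eventually.of_forall fun z => ENNReal.ofReal_lt_top)]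
  refine integrable_congr ?_
  filter_upwards [ae_restrict_mem hm] with z hz
  simp only [ENNReal.toReal_ofReal (hh.det_re_pos hΦ (hA hz)).le]

/-- integral of a function supported in one parametrisation. -/
theorem integral_hvol_of_support {E : Type} [NormedAddCommGroup E] [NormedSpace ℝ E]
    (hh : IsMetric 𝓜 h) (hΦ : 𝓜.IsHol Φ U) (f : V → E)
    (h0 : ∀ x ∈ 𝓜.carrier, x ∉ Φ '' U → f x = 0) :
    ∫ x, f x ∂(hvol 𝓜 h) = ∫ z in U, (h Φ z).det.re • f (Φ z) := by
  rw [← integral_hvol_image hh hΦ subset_rfl (CMfd.isOpen_dom hΦ).measurableSet]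
  exact (setIntegral_eq_integral_of_ae_compl_eq_zero (ae_hvol_of_forall_mem h0)).symm

/-- real valued form, density on the right (the shape of `CW/Green.lean`). -/
theorem integral_hvol_of_support_real (hh : IsMetric 𝓜 h) (hΦ : 𝓜.IsHol Φ U) (f : V → ℝ)
    (h0 : ∀ x ∈ 𝓜.carrier, x ∉ Φ '' U → f x = 0) :
    ∫ x, f x ∂(hvol 𝓜 h) = ∫ z in U, f (Φ z) * (h Φ z).det.re := by
  rw [integral_hvol_of_support hh hΦ f h0]
  simp only [smul_eq_mul, mul_comm]

theorem integrable_hvol_of_support_iff {E : Type} [NormedAddCommGroup E] [NormedSpace ℝ E]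
    (hh : IsMetric 𝓜 h) (hΦ : 𝓜.IsHol Φ U) (f : V → E)
    (h0 : ∀ x ∈ 𝓜.carrier, x ∉ Φ '' U → f x = 0) :
    Integrable f (hvol 𝓜 h) ↔ IntegrableOn (fun z => (h Φ z).det.re • f (Φ z)) U := by
  rw [← integrableOn_hvol_image_iff hh hΦ subset_rfl (CMfd.isOpen_dom hΦ).measurableSet]
  constructor
  · exact fun hf => hf.integrableOn
  · exact fun hf => hf.integrable_of_ae_notMem_eq_zero (ae_hvol_of_forall_mem h0)

/-! ### null sets, a.e. -/

theorem hvol_image_eq_zero (hh : IsHForm 𝓜 h) (hΦ : 𝓜.IsHol Φ U) {B : Set (CE ι)} (hB : B ⊆ U)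
    (h0 : volume B = 0) : hvol 𝓜 h (Φ '' B) = 0 := by
  have hU := (CMfd.isOpen_dom hΦ).measurableSet
  have hT : MeasurableSet (toMeasurable volume B ∩ U) := (measurableSet_toMeasurable _ _).inter hU
  have h1 : volume (toMeasurable volume B ∩ U) = 0 :=
    measure_mono_null Set.inter_subset_left ((measure_toMeasurable B).trans h0)
  refine measure_mono_null (Set.image_mono (Set.subset_inter (subset_toMeasurable volume B) hB)) ?_
  rw [hvol_image hh hΦ Set.inter_subset_right hT]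
  exact setLIntegral_measure_zero _ _ h1

/-- null sets are the sets which are null in every parametrisation (no measurability). -/
theorem hvol_eq_zero_iff (hh : IsMetric 𝓜 h) {S : Set V} :
    hvol 𝓜 h S = 0 ↔
      ∀ (Φ : CE ι → V) (U : Set (CE ι)), 𝓜.IsHol Φ U → volume (U ∩ Φ ⁻¹' S) = 0 := by
  constructor
  · intro hS Φ U hΦ
    set T := toMeasurable (hvol 𝓜 h) S with hTdef
    have hTm : MeasurableSet T := measurableSet_toMeasurable _ _
    have hT0 : hvol 𝓜 h T = 0 := (measure_toMeasurable S).trans hS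
    have hBm := CMfd.measurableSet_inter_preimage hΦ hTm
    have h1 : hvol 𝓜 h (Φ '' (U ∩ Φ ⁻¹' T)) = 0 := by
      refine measure_mono_null ?_ hT0
      rintro _ ⟨z, hz, rfl⟩
      exact hz.2
    rw [hvol_image hh.toIsHForm hΦ Set.inter_subset_left hBm,
      lintegral_eq_zero_iff' (aemeasurable_dens hh.toIsHForm hΦ Set.inter_subset_left hBm)] at h1
    have h2 : ∀ᵐ z ∂(volume.restrict (U ∩ Φ ⁻¹' T)), False := by
      filter_upwards [h1, ae_restrict_mem hBm] with z hz hzB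
      have hpos := hh.det_re_pos hΦ hzB.1
      simp only [Pi.zero_apply, ENNReal.ofReal_eq_zero] at hz
      linarith
    rw [Filter.eventually_false_iff_eq_bot, ae_eq_bot, Measure.restrict_eq_zero] at h2
    refine measure_mono_null ?_ h2
    exact Set.inter_subset_inter_right _ (Set.preimage_mono (subset_toMeasurable _ _))
  · intro hS
    obtain ⟨𝒜, h𝒜c, h𝒜, hcov⟩ := 𝓜.exists_countable_atlas
    rw [← hvol_inter_carrier]
    have hsub : S ∩ 𝓜.carrier ⊆ ⋃ p ∈ 𝒜, p.1 '' (p.2 ∩ p.1 ⁻¹' S) := by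
      rintro x ⟨hxS, hxc⟩
      rw [hcov] at hxc
      obtain ⟨p, hp, z, hz, rfl⟩ := Set.mem_iUnion₂.1 hxc
      exact Set.mem_iUnion₂.2 ⟨p, hp, z, ⟨hz, hxS⟩, rfl⟩
    refine measure_mono_null hsub ?_
    rw [measure_biUnion_null_iff h𝒜c]
    intro p hp
    exact hvol_image_eq_zero hh.toIsHForm (h𝒜 p hp) Set.inter_subset_left (hS _ _ (h𝒜 p hp))

theorem ae_hvol_iff (hh : IsMetric 𝓜 h) {P : V → Prop} :
    (∀ᵐ x ∂(hvol 𝓜 h), P x) ↔
      ∀ (Φ : CE ι → V) (U : Set (CE ι)), 𝓜.IsHol Φ U → ∀ᵐ z ∂(volume.restrict U), P (Φ z) := by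
  rw [ae_iff, hvol_eq_zero_iff hh]
  refine forall_congr' fun Φ => forall_congr' fun U => forall_congr' fun hΦ => ?_
  rw [ae_iff, Measure.restrict_apply' (CMfd.isOpen_dom hΦ).measurableSet, Set.inter_comm]
  rfl

/-- the null sets do not depend on the metric. -/
theorem hvol_absolutelyContinuous (hh : IsMetric 𝓜 h) (hg : IsMetric 𝓜 g) :
    hvol 𝓜 h ≪ hvol 𝓜 g := by
  exact fun S hS => (hvol_eq_zero_iff hh).2 ((hvol_eq_zero_iff hg).1 hS)

/-- measurability may be checked in parametrisations. -/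
theorem aestronglyMeasurable_hvol_iff {X : Type} [TopologicalSpace X]
    [TopologicalSpace.PseudoMetrizableSpace X] (hh : IsMetric 𝓜 h) {f : V → X} :
    AEStronglyMeasurable f (hvol 𝓜 h) ↔
      ∀ (Φ : CE ι → V) (U : Set (CE ι)), 𝓜.IsHol Φ U →
        AEStronglyMeasurable (f ∘ Φ) (volume.restrict U) := by
  constructor
  · intro hf Φ U hΦ
    have h1 : AEStronglyMeasurable (hf.mk f ∘ Φ) (volume.restrict U) :=
      hf.stronglyMeasurable_mk.aestronglyMeasurable.comp_aemeasurable (CMfd.aemeasurable_param hΦ)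
    refine h1.congr ?_
    have h2 := (ae_hvol_iff hh).1 hf.ae_eq_mk Φ U hΦ
    filter_upwards [h2] with z hz using hz.symm
  · intro hf
    obtain ⟨𝒜, h𝒜c, h𝒜, hcov⟩ := 𝓜.exists_countable_atlas
    rw [← hvol_restrict_carrier 𝓜 h, hcov, Set.biUnion_eq_iUnion]
    have : Countable 𝒜 := h𝒜c.to_subtype
    refine AEStronglyMeasurable.iUnion fun p => ?_
    have hΦ := h𝒜 p.1 p.2
    have hU := (CMfd.isOpen_dom hΦ).measurableSet
    rw [hvol_restrict_image_emb hh.toIsHForm hΦ subset_rfl hU,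
      (CMfd.measurableEmbedding_param_set hΦ subset_rfl hU).aestronglyMeasurable_map_iff]
    have h1 : AEStronglyMeasurable (f ∘ p.1.1) (densM h p.1.1 p.1.2) :=
      (hf _ _ hΦ).mono_ac (withDensity_absolutelyContinuous _ _)
    rw [← densM_restrict h p.1.1 hU, ← map_comap_subtype_coe hU,
      (MeasurableEmbedding.subtype_coe hU).aestronglyMeasurable_map_iff] at h1
    exact h1

/-! ### finiteness, positivity -/

theorem hvol_lt_top_of_isCompact (hh : IsMetric 𝓜 h) {K : Set V} (hK : IsCompact K)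
    (hsub : K ⊆ 𝓜.carrier) : hvol 𝓜 h K < ⊤ := by
  obtain ⟨m, Φ, r, hr, hΦ, hcov⟩ := 𝓜.exists_finite_cover hK hsub
  have hcb : ∀ i, Metric.closedBall (0 : CE ι) (r i) ⊆ Metric.ball 0 (2 * r i) :=
    fun i => Metric.closedBall_subset_ball (by linarith [hr i])
  have h1 : ∀ i, hvol 𝓜 h (Φ i '' Metric.closedBall 0 (r i)) < ⊤ := by
    intro i
    rw [hvol_image hh.toIsHForm (hΦ i) (hcb i) Metric.isClosed_closedBall.measurableSet]
    have h2 : IntegrableOn (fun z => (h (Φ i) z).det.re) (Metric.closedBall 0 (r i)) :=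
      ((hh.continuousOn_det_re (hΦ i)).mono (hcb i)).integrableOn_compact (isCompact_closedBall _ _)
    exact h2.lintegral_lt_top
  calc hvol 𝓜 h K ≤ hvol 𝓜 h (⋃ i, Φ i '' Metric.closedBall 0 (r i)) :=
        measure_mono (hcov.trans (Set.iUnion_mono fun i =>
          Set.image_mono Metric.ball_subset_closedBall))
    _ ≤ ∑ i, hvol 𝓜 h (Φ i '' Metric.closedBall 0 (r i)) := measure_iUnion_fintype_le _ _
    _ < ⊤ := ENNReal.sum_lt_top.2 fun i _ => h1 i

theorem hvol_pos_of_isOpen (hh : IsMetric 𝓜 h) {O : Set V} (hO : IsOpen O)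
    (hne : (𝓜.carrier ∩ O).Nonempty) : 0 < hvol 𝓜 h O := by
  obtain ⟨x, hx, hxO⟩ := hne
  obtain ⟨Φ, U, hΦ, z, hz, rfl⟩ := 𝓜.cover x hx
  rw [pos_iff_ne_zero]
  intro h0
  have h1 := (hvol_eq_zero_iff hh).1 h0 Φ U hΦ
  have h2 : 0 < volume (U ∩ Φ ⁻¹' O) :=
    ((𝓜.isParam hΦ).isOpen_inter_preimage hO).measure_pos volume ⟨z, hz, hxO⟩
  exact h2.ne' h1

/-- neighbourhood form. -/
theorem hvol_pos_of_mem_nhdsWithin (hh : IsMetric 𝓜 h) {x : V} (hx : x ∈ 𝓜.carrier) {S : Set V}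
    (hS : S ∈ 𝓝[𝓜.carrier] x) : 0 < hvol 𝓜 h S := by
  obtain ⟨O, hO, hxO, hOS⟩ := mem_nhdsWithin.1 hS
  calc 0 < hvol 𝓜 h O := hvol_pos_of_isOpen hh hO ⟨x, hx, hxO⟩
    _ = hvol 𝓜 h (O ∩ 𝓜.carrier) := (hvol_inter_carrier 𝓜 h O).symm
    _ ≤ hvol 𝓜 h S := measure_mono hOS

theorem sigmaFinite_hvol (hh : IsMetric 𝓜 h) : SigmaFinite (hvol 𝓜 h) := by
  obtain ⟨K, hK, hKu⟩ := 𝓜.isSigmaCompact_carrier
  refine ⟨⟨⟨fun n => K n ∪ 𝓜.carrierᶜ, fun _ => trivial, ?_, ?_⟩⟩⟩
  · intro n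
    have hKn : K n ⊆ 𝓜.carrier := hKu ▸ Set.subset_iUnion K n
    calc hvol 𝓜 h (K n ∪ 𝓜.carrierᶜ) ≤ hvol 𝓜 h (K n) + hvol 𝓜 h 𝓜.carrierᶜ :=
          measure_union_le _ _
      _ = hvol 𝓜 h (K n) := by rw [hvol_compl_carrier, add_zero]
      _ < ⊤ := hvol_lt_top_of_isCompact hh (hK n) hKn
  · rw [← Set.iUnion_union, hKu, Set.union_compl_self]

theorem isFiniteMeasureOnCompacts_hvol (hh : IsMetric 𝓜 h) (hcl : IsClosed 𝓜.carrier) :
    IsFiniteMeasureOnCompacts (hvol 𝓜 h) := by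
  refine ⟨fun K hK => ?_⟩
  rw [← hvol_inter_carrier]
  exact hvol_lt_top_of_isCompact hh (hK.inter_right hcl) Set.inter_subset_right

theorem isLocallyFiniteMeasure_hvol [FiniteDimensional ℝ V] (hh : IsMetric 𝓜 h)
    (hcl : IsClosed 𝓜.carrier) : IsLocallyFiniteMeasure (hvol 𝓜 h) := by
  have := isFiniteMeasureOnCompacts_hvol hh hcl
  have : ProperSpace V := FiniteDimensional.proper_real V
  infer_instance

/-- points are null (if `ι` is nonempty). -/
theorem hvol_singleton [Nonempty ι] (hh : IsMetric 𝓜 h) (x : V) : hvol 𝓜 h {x} = 0 := by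
  rw [hvol_eq_zero_iff hh]
  intro Φ U hΦ
  have hs : (U ∩ Φ ⁻¹' {x}).Subsingleton := by
    rintro z ⟨hz, hzx⟩ w ⟨hw, hwx⟩
    exact (𝓜.isParam hΦ).injOn hz hw (hzx.trans hwx.symm)
  exact hs.measure_zero volume

/-- two continuous functions which agree a.e. agree on the carrier. -/
theorem eqOn_of_ae_eq_hvol {X : Type} [TopologicalSpace X] [T2Space X] (hh : IsMetric 𝓜 h)
    {f f' : V → X} (hf : ContinuousOn f 𝓜.carrier) (hf' : ContinuousOn f' 𝓜.carrier)
    (hae : f =ᵐ[hvol 𝓜 h] f') : Set.EqOn f f' 𝓜.carrier := by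
  intro x hx
  by_contra hne
  have h1 : Filter.Tendsto (fun y => (f y, f' y)) (𝓝[𝓜.carrier] x) (𝓝 (f x, f' x)) :=
    (hf x hx).tendsto.prodMk_nhds (hf' x hx).tendsto
  have h2 : (Set.diagonal X)ᶜ ∈ 𝓝 (f x, f' x) := isClosed_diagonal.isOpen_compl.mem_nhds hne
  have h3 : {y | f y ≠ f' y} ∈ 𝓝[𝓜.carrier] x := h1 h2
  have h4 := hvol_pos_of_mem_nhdsWithin hh hx h3
  exact h4.ne' (ae_iff.1 hae)

/-- a continuous nonnegative function with vanishing integral vanishes. -/
theorem eq_zero_of_integral_hvol_eq_zero (hh : IsMetric 𝓜 h) {f : V → ℝ}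
    (hf : ContinuousOn f 𝓜.carrier) (h0 : ∀ x ∈ 𝓜.carrier, 0 ≤ f x)
    (hi : Integrable f (hvol 𝓜 h)) (hz : ∫ x, f x ∂(hvol 𝓜 h) = 0) :
    ∀ x ∈ 𝓜.carrier, f x = 0 := by
  have h1 : f =ᵐ[hvol 𝓜 h] 0 :=
    (integral_eq_zero_iff_of_nonneg_ae (ae_hvol_of_forall_mem h0) hi).1 hz
  exact fun x hx => eqOn_of_ae_eq_hvol hh hf continuousOn_const h1 hx

/-! ### integrability of continuous functions -/

theorem integrableOn_hvol_of_continuousOn {E : Type} [NormedAddCommGroup E] (hh : IsMetric 𝓜 h)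
    {f : V → E} {K : Set V} (hK : IsCompact K) (hsub : K ⊆ 𝓜.carrier) (hf : ContinuousOn f K) :
    IntegrableOn f K (hvol 𝓜 h) := by
  obtain ⟨C, hC⟩ := hK.exists_bound_of_continuousOn hf
  refine ⟨hf.aestronglyMeasurable hK.isClosed.measurableSet,
    .restrict_of_bounded (C := C) (hvol_lt_top_of_isCompact hh hK hsub) ?_⟩
  filter_upwards [ae_restrict_mem hK.isClosed.measurableSet] with x hx using hC x hx

theorem integrable_hvol_of_csupp {E : Type} [NormedAddCommGroup E] (hh : IsMetric 𝓜 h)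
    {f : V → E} (hf : ContinuousOn f 𝓜.carrier) (hc : 𝓜.CSupp f) : Integrable f (hvol 𝓜 h) := by
  obtain ⟨K, hK, hsub, h0⟩ := hc
  exact (integrableOn_hvol_of_continuousOn hh hK hsub (hf.mono hsub)).integrable_of_ae_notMem_eq_zero
    (ae_hvol_of_forall_mem h0)

/-- bounded measurable function with compact support. -/
theorem integrable_hvol_of_bdd_csupp {E : Type} [NormedAddCommGroup E] (hh : IsMetric 𝓜 h)
    {f : V → E} (hm : AEStronglyMeasurable f (hvol 𝓜 h)) (hc : 𝓜.CSupp f) {C : ℝ}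
    (hb : ∀ x ∈ 𝓜.carrier, ‖f x‖ ≤ C) : Integrable f (hvol 𝓜 h) := by
  obtain ⟨K, hK, hsub, h0⟩ := hc
  have h1 : IntegrableOn f K (hvol 𝓜 h) := by
    refine Measure.integrableOn_of_bounded (M := C) (hvol_lt_top_of_isCompact hh hK hsub).ne hm ?_
    exact ae_restrict_of_ae (ae_hvol_of_forall_mem hb)
  exact h1.integrable_of_ae_notMem_eq_zero (ae_hvol_of_forall_mem h0)

/-- product of a locally integrable (here: integrable on compacts) function with a continuous compactly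
supported one. -/
theorem integrable_hvol_mul_of_csupp (hh : IsMetric 𝓜 h) {f φ : V → ℝ}
    (hf : ∀ K : Set V, IsCompact K → K ⊆ 𝓜.carrier → IntegrableOn f K (hvol 𝓜 h))
    (hφ : ContinuousOn φ 𝓜.carrier) (hc : 𝓜.CSupp φ) :
    Integrable (fun x => φ x * f x) (hvol 𝓜 h) := by
  obtain ⟨K, hK, hsub, h0⟩ := hc
  obtain ⟨C, hC⟩ := hK.exists_bound_of_continuousOn (hφ.mono hsub)
  have h1 : IntegrableOn (fun x => φ x * f x) K (hvol 𝓜 h) := by
    refine Integrable.bdd_mul (c := C) (hf K hK hsub)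
      ((hφ.mono hsub).aestronglyMeasurable hK.isClosed.measurableSet) ?_
    filter_upwards [ae_restrict_mem hK.isClosed.measurableSet] with x hx using hC x hx
  refine h1.integrable_of_ae_notMem_eq_zero (ae_hvol_of_forall_mem fun x hx hxK => ?_)
  rw [h0 x hx hxK, zero_mul]

/-! ### change of the metric, restriction -/

theorem aemeasurable_ofReal_detRatio (hh : IsMetric 𝓜 h) (hg : IsMetric 𝓜 g) :
    AEMeasurable (fun x => ENNReal.ofReal (detRatio 𝓜 h g x)) (hvol 𝓜 g) := by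
  exact ENNReal.measurable_ofReal.comp_aemeasurable
    ((smooth_detRatio hh.toIsHForm hg).aestronglyMeasurable).aemeasurable

theorem hvol_eq_withDensity (hh : IsMetric 𝓜 h) (hg : IsMetric 𝓜 g) :
    hvol 𝓜 h = (hvol 𝓜 g).withDensity fun x => ENNReal.ofReal (detRatio 𝓜 h g x) := by
  symm
  refine IsVol.eq_hvol ⟨withDensity_absolutelyContinuous _ _ (hvol_compl_carrier 𝓜 g), ?_⟩
  intro Φ U hΦ A hA hm
  rw [withDensity_apply _ (CMfd.measurableSet_image hΦ hA hm),
    lintegral_hvol_image hg.toIsHForm hΦ hA hm]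
  refine setLIntegral_congr_fun hm fun z hz => ?_
  have hpos := hg.det_re_pos hΦ (hA hz)
  rw [← ENNReal.ofReal_mul (detRatio_pos hh hg (CMfd.mem_carrier hΦ (hA hz))).le,
    detRatio_eq' hh.toIsHForm hg hΦ (hA hz), div_mul_cancel₀ _ hpos.ne']

theorem lintegral_hvol_eq_detRatio (hh : IsMetric 𝓜 h) (hg : IsMetric 𝓜 g) (f : V → ℝ≥0∞) :
    ∫⁻ x, f x ∂(hvol 𝓜 h) = ∫⁻ x, ENNReal.ofReal (detRatio 𝓜 h g x) * f x ∂(hvol 𝓜 g) := by
  rw [hvol_eq_withDensity hh hg,
    lintegral_withDensity_eq_lintegral_mul_non_measurable₀ _ (aemeasurable_ofReal_detRatio hh hg)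
    (Filter.Eventually.of_forall fun z => ENNReal.ofReal_lt_top)]
  rfl

theorem integral_hvol_eq_detRatio {E : Type} [NormedAddCommGroup E] [NormedSpace ℝ E]
    (hh : IsMetric 𝓜 h) (hg : IsMetric 𝓜 g) (f : V → E) :
    ∫ x, f x ∂(hvol 𝓜 h) = ∫ x, detRatio 𝓜 h g x • f x ∂(hvol 𝓜 g) := by
  rw [hvol_eq_withDensity hh hg,
    integral_withDensity_eq_integral_toReal_smul₀ (aemeasurable_ofReal_detRatio hh hg)
    (Filter.Eventually.of_forall fun z => ENNReal.ofReal_lt_top)]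
  refine integral_hvol_congr fun x hx => ?_
  rw [ENNReal.toReal_ofReal (detRatio_pos hh hg hx).le]

theorem setIntegral_hvol_eq_detRatio {E : Type} [NormedAddCommGroup E] [NormedSpace ℝ E]
    (hh : IsMetric 𝓜 h) (hg : IsMetric 𝓜 g) (f : V → E) {S : Set V} (hS : MeasurableSet S) :
    ∫ x in S, f x ∂(hvol 𝓜 h) = ∫ x in S, detRatio 𝓜 h g x • f x ∂(hvol 𝓜 g) := by
  rw [← integral_indicator hS, ← integral_indicator hS, integral_hvol_eq_detRatio hh hg]
  refine integral_congr_ae (Filter.Eventually.of_forall fun x => ?_)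
  by_cases hx : x ∈ S
  · simp only [Set.indicator_of_mem hx]
  · simp only [Set.indicator_of_notMem hx, smul_zero]

theorem integrable_hvol_iff_detRatio {E : Type} [NormedAddCommGroup E] [NormedSpace ℝ E]
    (hh : IsMetric 𝓜 h) (hg : IsMetric 𝓜 g) (f : V → E) :
    Integrable f (hvol 𝓜 h) ↔ Integrable (fun x => detRatio 𝓜 h g x • f x) (hvol 𝓜 g) := by
  rw [hvol_eq_withDensity hh hg,
    integrable_withDensity_iff_integrable_smul₀' (aemeasurable_ofReal_detRatio hh hg)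
    (Filter.Eventually.of_forall fun z => ENNReal.ofReal_lt_top)]
  refine integrable_hvol_congr fun x hx => ?_
  rw [ENNReal.toReal_ofReal (detRatio_pos hh hg hx).le]

/-- `h ≤ g ⟹ dV_h ≤ dV_g`. -/
theorem hvol_mono (hh : IsMetric 𝓜 h) (hg : IsMetric 𝓜 g) (hle : leF 𝓜 h g) :
    hvol 𝓜 h ≤ hvol 𝓜 g := by
  calc hvol 𝓜 h = (hvol 𝓜 g).withDensity fun x => ENNReal.ofReal (detRatio 𝓜 h g x) :=
        hvol_eq_withDensity hh hg
    _ ≤ (hvol 𝓜 g).withDensity 1 := by
        refine withDensity_mono (ae_hvol_of_forall_mem fun x hx => ?_)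
        simp only [Pi.one_apply]
        exact ENNReal.ofReal_le_one.2 (detRatio_le_one hh hg hle hx)
    _ = hvol 𝓜 g := withDensity_one

/-- volume measure of an open submanifold. -/
theorem hvol_restr (hh : IsHForm 𝓜 h) {O : Set V} (hO : IsOpen O) :
    hvol (𝓜.restr O hO) h = (hvol 𝓜 h).restrict O := by
  symm
  refine IsVol.eq_hvol ⟨?_, ?_⟩
  · rw [Measure.restrict_apply' hO.measurableSet]
    refine measure_mono_null ?_ (hvol_compl_carrier 𝓜 h)
    rintro x ⟨hx1, hx2⟩ hx3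
    exact hx1 ⟨hx3, hx2⟩
  · rintro Φ U ⟨hΦ, hΦO⟩ A hA hm
    rw [Measure.restrict_apply' hO.measurableSet,
      Set.inter_eq_self_of_subset_left ((Set.image_mono hA).trans hΦO), hvol_image hh hΦ hA hm]

end Claimed.Agent.R316
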